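import Vale.Agent.P309.Model

/-!
Elementary auxiliary facts: products of integrals, Gaussian quadratic exponentials, and counting
of lattice points.
-/

noncomputable section

open MeasureTheory ProbabilityTheory Finset
open scoped RealInnerProductSpace ENNReal NNReal

namespace Vale.Agent.P309

theorem lintegral_fin_prod {n : ℕ} {α : Fin n → Type*} [∀ i, MeasurableSpace (α i)]
    (μ : ∀ i, Measure (α i)) [∀ i, SigmaFinite (μ i)] (f : ∀ i, α i → ℝ≥0∞)
    (hf : ∀ i, Measurable (f i)) :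
    ∫⁻ x, ∏ i, f i (x i) ∂Measure.pi μ = ∏ i, ∫⁻ a, f i a ∂μ i := by
  induction n with
  | zero => simp
  | succ n ih =>
    have h := (measurePreserving_piFinSuccAbove μ 0).symm
    rw [← h.lintegral_comp (by fun_prop)]
    have e : ∀ z : α 0 × ((j : Fin n) → α (Fin.succAbove 0 j)),
        ∏ i, f i ((MeasurableEquiv.piFinSuccAbove α 0).symm z i) =
          f 0 z.1 * ∏ j, f (Fin.succAbove 0 j) (z.2 j) := by
      intro z
      rw [MeasurableEquiv.piFinSuccAbove_symm_apply, Fin.prod_univ_succAbove _ 0]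
      simp only [Fin.insertNthEquiv, Equiv.coe_fn_mk, Fin.insertNth_apply_same,
        Fin.insertNth_apply_succAbove]
    simp_rw [e]
    rw [lintegral_prod_mul (f := f 0)
        (g := fun y : (j : Fin n) → α (Fin.succAbove 0 j) =>
          ∏ j, f (Fin.succAbove 0 j) (y j)) (hf 0).aemeasurable
        (Finset.measurable_prod _ fun j _ => (hf _).comp (measurable_pi_apply j)).aemeasurable,
      ih (fun j => μ (Fin.succAbove 0 j)) (fun j => f (Fin.succAbove 0 j)) (fun j => hf _),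
      Fin.prod_univ_succAbove _ 0]

theorem lintegral_pi_prod_self {ι α : Type*} [Fintype ι] [MeasurableSpace α] (μ : Measure α)
    [SigmaFinite μ] (f : ι → α → ℝ≥0∞) (hf : ∀ i, Measurable (f i)) :
    ∫⁻ x, ∏ i, f i (x i) ∂Measure.pi (fun _ => μ) = ∏ i, ∫⁻ a, f i a ∂μ := by
  let e := (Fintype.equivFin ι).symm
  have h := measurePreserving_piCongrLeft (fun _ : ι => μ) e
  rw [← h.lintegral_comp (by fun_prop)]
  have : ∀ x : Fin (Fintype.card ι) → α,
      ∏ i, f i (MeasurableEquiv.piCongrLeft (fun _ : ι => α) e x i) = ∏ j, f (e j) (x j) := by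
    intro x
    rw [← e.prod_comp]
    simp [MeasurableEquiv.piCongrLeft_apply_apply]
  simp_rw [this]
  rw [lintegral_fin_prod _ _ (fun j => hf (e j)), e.prod_comp (fun i => ∫⁻ a, f i a ∂μ)]

/-- `E exp (a ξ^2) ≤ C` for a standard Gaussian `ξ` as soon as `1 ≤ C^2 (1 - 2a)`. -/
theorem lintegral_exp_sq_gaussian {a C : ℝ} (hC : 0 ≤ C) (h : 1 ≤ C ^ 2 * (1 - 2 * a)) :
    ∫⁻ x, ENNReal.ofReal (Real.exp (a * x ^ 2)) ∂gaussianReal 0 1 ≤ ENNReal.ofReal C := by
  have hb : 0 < 1 / 2 - a := by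
    by_contra hh
    nlinarith [sq_nonneg C, not_lt.1 hh]
  rw [gaussianReal_of_var_ne_zero _ one_ne_zero,
    lintegral_withDensity_eq_lintegral_mul _ (measurable_gaussianPDF _ _) (by fun_prop)]
  have e1 : ∀ x : ℝ, (gaussianPDF 0 1 * fun x => ENNReal.ofReal (Real.exp (a * x ^ 2))) x =
      ENNReal.ofReal ((√(2 * Real.pi))⁻¹ * Real.exp (-(1 / 2 - a) * x ^ 2)) := by
    intro x
    simp only [Pi.mul_apply, gaussianPDF, gaussianPDFReal, NNReal.coe_one, mul_one, sub_zero]
    rw [← ENNReal.ofReal_mul (by positivity), mul_assoc, ← Real.exp_add]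
    congr 3
    ring
  simp_rw [e1]
  rw [← ofReal_integral_eq_lintegral_ofReal ((integrable_exp_neg_mul_sq hb).const_mul _)
    (ae_of_all _ fun x => by positivity), integral_const_mul, integral_gaussian]
  refine ENNReal.ofReal_le_ofReal ?_
  rw [← Real.sqrt_inv, ← Real.sqrt_mul (by positivity), Real.sqrt_le_iff]
  refine ⟨hC, ?_⟩
  have hp := Real.pi_pos
  rw [show (2 * Real.pi)⁻¹ * (Real.pi / (1 / 2 - a)) = 1 / (1 - 2 * a) by
    field_simp
    try ring]
  rw [div_le_iff₀ (by linarith)]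
  exact h

theorem exp_le_one_add_two_mul {x : ℝ} (h0 : 0 ≤ x) (h1 : x ≤ 1) :
    Real.exp x ≤ 1 + 2 * x := by
  have := Real.abs_exp_sub_one_le (abs_le.2 ⟨by linarith, h1⟩)
  rw [abs_of_nonneg (by linarith [Real.add_one_le_exp x]), abs_of_nonneg h0] at this
  linarith

/-- Weighted sum over a symmetric integer interval. -/
theorem sum_exp_neg_natAbs_le (B : ℕ) {L : ℝ} (hL : 0 ≤ L) :
    ∑ a ∈ Icc (-(B : ℤ)) B, Real.exp (-(|(a : ℝ)|) / (L + 1)) ≤ 2 * (L + 2) := by
  set q := Real.exp (-1 / (L + 1)) with hq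
  have hq0 : 0 < q := Real.exp_pos _
  have hq1 : q < 1 := Real.exp_lt_one_iff.2 (by
    apply div_neg_of_neg_of_pos <;> linarith)
  have hterm : ∀ a : ℤ, Real.exp (-(|(a : ℝ)|) / (L + 1)) = q ^ a.natAbs := by
    intro a
    rw [hq, ← Real.exp_nat_mul, Nat.cast_natAbs, Int.cast_abs]
    ring_nf
  simp_rw [hterm]
  have hgeom : ∑ k ∈ range (B + 1), q ^ k ≤ (1 - q)⁻¹ := by
    rw [← tsum_geometric_of_lt_one hq0.le hq1]
    exact Summable.sum_le_tsum _ (fun k _ => by positivity)
      (summable_geometric_of_lt_one hq0.le hq1)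
  have hsub : Icc (-(B : ℤ)) B ⊆
      (range (B + 1)).image (fun k : ℕ => (k : ℤ)) ∪
        (range (B + 1)).image (fun k : ℕ => -(k : ℤ)) := by
    intro a ha
    rw [Finset.mem_Icc] at ha
    simp only [Finset.mem_union, Finset.mem_image, Finset.mem_range]
    rcases le_total 0 a with h | h
    · exact Or.inl ⟨a.natAbs, by omega, by omega⟩
    · exact Or.inr ⟨a.natAbs, by omega, by omega⟩
  have hinv : (1 - q)⁻¹ ≤ L + 2 := by
    have h1 : q ≤ (1 + 1 / (L + 1))⁻¹ := by
      rw [hq, neg_div, Real.exp_neg]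
      gcongr
      linarith [Real.add_one_le_exp (1 / (L + 1))]
    have h2 : (L + 2)⁻¹ ≤ 1 - q := by
      have : (1 + 1 / (L + 1))⁻¹ = 1 - (L + 2)⁻¹ := by field_simp; ring
      linarith
    calc (1 - q)⁻¹ ≤ ((L + 2)⁻¹)⁻¹ := by gcongr
      _ = L + 2 := inv_inv _
  calc ∑ a ∈ Icc (-(B : ℤ)) B, q ^ a.natAbs
      ≤ ∑ a ∈ (range (B + 1)).image (fun k : ℕ => (k : ℤ)) ∪
          (range (B + 1)).image (fun k : ℕ => -(k : ℤ)), q ^ a.natAbs :=
        Finset.sum_le_sum_of_subset_of_nonneg hsub (fun _ _ _ => by positivity)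
    _ ≤ ∑ a ∈ (range (B + 1)).image (fun k : ℕ => (k : ℤ)), q ^ a.natAbs +
          ∑ a ∈ (range (B + 1)).image (fun k : ℕ => -(k : ℤ)), q ^ a.natAbs := by
        rw [← Finset.sum_union_inter]
        exact le_add_of_nonneg_right (Finset.sum_nonneg fun _ _ => by positivity)
    _ ≤ _ := by
        rw [Finset.sum_image (by intro a _ b _ h; simpa using h),
          Finset.sum_image (by intro a _ b _ h; simpa using h)]
        simp only [Int.natAbs_natCast, Int.natAbs_neg]
        linarith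

/-- The integer points of a box whose distance from the origin is at most `√m * L`. -/
def intBox (m B : ℕ) : Finset (Fin m → ℤ) := Fintype.piFinset fun _ => Icc (-(B : ℤ)) B

/-- The integer points in an `ℓ^1` ball of radius `m L`, within a box, number at most
`(exp 1 · 2 (L+2))^m`. -/
theorem card_filter_l1_le (m B : ℕ) {L : ℝ} (hL : 0 ≤ L) :
    (((intBox m B).filter fun n => ∑ i, |(n i : ℝ)| ≤ m * L).card : ℝ) ≤
      (Real.exp 1 * (2 * (L + 2))) ^ m := by
  have hL1 : 0 < L + 1 := by linarith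
  calc (((intBox m B).filter fun n => ∑ i, |(n i : ℝ)| ≤ m * L).card : ℝ)
      = ∑ n ∈ (intBox m B).filter fun n => ∑ i, |(n i : ℝ)| ≤ m * L, (1 : ℝ) := by simp
    _ ≤ ∑ n ∈ (intBox m B).filter fun n => ∑ i, |(n i : ℝ)| ≤ m * L,
          Real.exp (m : ℝ) * ∏ i, Real.exp (-(|(n i : ℝ)|) / (L + 1)) := by
        refine Finset.sum_le_sum fun n hn => ?_
        rw [Finset.mem_filter] at hn
        rw [← Real.exp_sum, ← Real.exp_add]
        refine Real.one_le_exp ?_
        rw [← Finset.sum_div, Finset.sum_neg_distrib, neg_div]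
        have : (∑ i, |(n i : ℝ)|) / (L + 1) ≤ m := by
          rw [div_le_iff₀ hL1]
          have : (0 : ℝ) ≤ m := by positivity
          nlinarith [hn.2]
        linarith
    _ ≤ ∑ n ∈ intBox m B, Real.exp (m : ℝ) * ∏ i, Real.exp (-(|(n i : ℝ)|) / (L + 1)) :=
        Finset.sum_le_sum_of_subset_of_nonneg (Finset.filter_subset _ _)
          (fun _ _ _ => by positivity)
    _ = Real.exp (m : ℝ) * ∏ _i : Fin m,
          ∑ a ∈ Icc (-(B : ℤ)) B, Real.exp (-(|(a : ℝ)|) / (L + 1)) := by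
        rw [← Finset.mul_sum, Finset.prod_univ_sum]; rfl
    _ ≤ Real.exp (m : ℝ) * ∏ _i : Fin m, 2 * (L + 2) := by
        gcongr with i
        exact sum_exp_neg_natAbs_le B hL
    _ = _ := by
        rw [Finset.prod_const, Finset.card_univ, Fintype.card_fin, mul_pow (Real.exp 1),
          Real.exp_one_pow]

end Vale.Agent.P309
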