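import Vale.Agent.P309.Gauss

/-!
Covering numbers for balls by grid cells and for tubes around affine subspaces by balls, the
iterated projection bound, and the layer bound for negative powers of distances.
-/

noncomputable section

open MeasureTheory ProbabilityTheory Finset
open scoped RealInnerProductSpace ENNReal NNReal

namespace Vale.Agent.P309

variable {d : ℕ}

/-- The grid cell of side `2^(-L)/√d` containing `s`. -/
def key (L : ℕ) (s : Vec d) : Fin d → ℤ := fun i => ⌊s i * (2 ^ L * √(d : ℝ))⌋

theorem sum_abs_le_sqrt_mul_norm {m : ℕ} (a : Fin m → ℝ) :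
    ∑ i, |a i| ≤ √(m : ℝ) * √(∑ i, a i ^ 2) := by
  have := sq_sum_le_card_mul_sum_sq (s := Finset.univ) (f := fun i => |a i|)
  simp only [sq_abs, Finset.card_univ, Fintype.card_fin] at this
  rw [← Real.sqrt_mul (by positivity)]
  exact Real.le_sqrt_of_sq_le (by exact_mod_cast this)

theorem sum_abs_le_norm (x : Vec d) : ∑ i, |x i| ≤ √(d : ℝ) * ‖x‖ := by
  rw [EuclideanSpace.norm_eq]
  simpa [Real.norm_eq_abs, sq_abs] using sum_abs_le_sqrt_mul_norm (fun i => x i)

/-- A ball of radius `ρ 2^(-L)` meets at most `(2e(ρ+3))^d` cells of level `L`. -/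
theorem exists_keys_cover (L : ℕ) (u : Vec d) {ρ : ℝ} (hρ : 0 ≤ ρ) :
    ∃ S : Finset (Fin d → ℤ), (S.card : ℝ) ≤ (Real.exp 1 * (2 * (ρ + 3))) ^ d ∧
      ∀ s : Vec d, ‖s - u‖ ≤ ρ / 2 ^ L → key L s ∈ S := by
  set B := ⌈(d : ℝ) * (ρ + 1)⌉₊ with hB
  set T := (intBox d B).filter fun n => ∑ i, |(n i : ℝ)| ≤ d * (ρ + 1) with hT
  refine ⟨T.image fun n i => n i + key L u i, ?_, fun s hs => ?_⟩
  · calc ((T.image fun n i => n i + key L u i).card : ℝ) ≤ T.card := by
          exact_mod_cast Finset.card_image_le
      _ ≤ (Real.exp 1 * (2 * (ρ + 1 + 2))) ^ d := card_filter_l1_le d B (by linarith)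
      _ = _ := by ring
  · refine Finset.mem_image.2 ⟨fun i => key L s i - key L u i, ?_, by ext i; simp⟩
    set c := 2 ^ L * √(d : ℝ) with hc
    have hi : ∀ i, |((key L s i - key L u i : ℤ) : ℝ)| ≤ |(s - u) i| * c + 1 := by
      intro i
      simp only [key, ← hc, Int.cast_sub, PiLp.sub_apply]
      have h1 := Int.floor_le (s i * c)
      have h2 := Int.lt_floor_add_one (s i * c)
      have h3 := Int.floor_le (u i * c)
      have h4 := Int.lt_floor_add_one (u i * c)
      have hc0 : 0 ≤ c := by positivity
      have h5 := le_abs_self (s i - u i)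
      have h6 := neg_abs_le (s i - u i)
      rw [abs_le]
      constructor
      · nlinarith [mul_le_mul_of_nonneg_right h6 hc0]
      · nlinarith [mul_le_mul_of_nonneg_right h5 hc0]
    have hsum : ∑ i, |((key L s i - key L u i : ℤ) : ℝ)| ≤ d * (ρ + 1) := by
      calc ∑ i, |((key L s i - key L u i : ℤ) : ℝ)| ≤ ∑ i, (|(s - u) i| * c + 1) :=
            Finset.sum_le_sum fun i _ => hi i
        _ = (∑ i, |(s - u) i|) * c + d := by
            simp [Finset.sum_add_distrib, Finset.sum_mul]
        _ ≤ √(d : ℝ) * (ρ / 2 ^ L) * c + d := by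
            gcongr
            exact le_trans (sum_abs_le_norm _) (by gcongr)
        _ = d * (ρ + 1) := by
            rw [hc]
            field_simp
            rw [Real.sq_sqrt (by positivity)]
            ring
    rw [hT, Finset.mem_filter]
    refine ⟨?_, hsum⟩
    simp only [intBox, Fintype.mem_piFinset, Finset.mem_Icc]
    intro i
    have h1 : |((key L s i - key L u i : ℤ) : ℝ)| ≤ (B : ℝ) :=
      le_trans (le_trans (Finset.single_le_sum
        (f := fun i => |((key L s i - key L u i : ℤ) : ℝ)|) (fun j _ => abs_nonneg _)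
        (Finset.mem_univ i)) hsum) (Nat.le_ceil _)
    have h2 : |key L s i - key L u i| ≤ (B : ℤ) := by exact_mod_cast h1
    exact abs_le.1 h2

/-- The corner of a grid cell. -/
def corner (L : ℕ) (n : Fin d → ℤ) : Vec d :=
  WithLp.toLp 2 fun i => (n i : ℝ) / (2 ^ L * √(d : ℝ))

theorem norm_sub_corner_le (L : ℕ) (s : Vec d) : ‖s - corner L (key L s)‖ ≤ 1 / 2 ^ L := by
  rcases Nat.eq_zero_or_pos d with hd | hd
  · subst hd
    have : s - corner L (key L s) = 0 := Subsingleton.elim _ _
    simp [this]
  set c := 2 ^ L * √(d : ℝ) with hc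
  have hc0 : 0 < c := by positivity
  rw [EuclideanSpace.norm_eq, Real.sqrt_le_iff]
  refine ⟨by positivity, ?_⟩
  calc ∑ i, ‖(s - corner L (key L s)) i‖ ^ 2 ≤ ∑ _i : Fin d, (1 / c) ^ 2 := by
        refine Finset.sum_le_sum fun i _ => ?_
        rw [Real.norm_eq_abs, sq_abs]
        simp only [corner, key, ← hc, PiLp.sub_apply]
        have h1 := Int.floor_le (s i * c)
        have h2 := Int.lt_floor_add_one (s i * c)
        have h3 : s i - (⌊s i * c⌋ : ℝ) / c = (s i * c - ⌊s i * c⌋) / c := by field_simp
        rw [h3]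
        apply pow_le_pow_left₀ (div_nonneg (by linarith) hc0.le)
        gcongr
        linarith
    _ = (1 / 2 ^ L) ^ 2 := by
        rw [Finset.sum_const, Finset.card_univ, Fintype.card_fin, nsmul_eq_mul, hc]
        field_simp
        rw [Real.sq_sqrt (by positivity)]

/-- A tube of width `2^(-i)` around an affine subspace, inside the unit ball, is covered by
`(2e(2^i+3))^m` balls of radius `2 · 2^(-i)`. -/
theorem exists_tube_cover (S : Submodule ℝ (Vec d)) {m : ℕ} (hm : Module.finrank ℝ S ≤ m)
    (u0 : Vec d) (i : ℕ) :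
    ∃ C : Finset (Vec d), (C.card : ℝ) ≤ (Real.exp 1 * (2 * ((2 : ℝ) ^ i + 3))) ^ m ∧
      ∀ u : Vec d, ‖u‖ ≤ 1 → ‖(u - u0) - S.starProjection (u - u0)‖ ≤ 1 / 2 ^ i →
        ∃ c ∈ C, ‖u - c‖ ≤ 2 / 2 ^ i := by
  set r := Module.finrank ℝ S with hr
  set b := stdOrthonormalBasis ℝ S
  set c := 2 ^ i * √(r : ℝ) with hc
  set B := ⌈(r : ℝ) * (2 ^ i + 1)⌉₊ with hB
  set T := (intBox r B).filter fun n => ∑ j, |(n j : ℝ)| ≤ r * (2 ^ i + 1) with hT
  refine ⟨T.image fun n => (u0 - S.starProjection u0) +
    ((∑ j, ((n j : ℝ) / c) • b j : S) : Vec d), ?_, fun u hu hdist => ?_⟩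
  · calc _ ≤ (T.card : ℝ) := by exact_mod_cast Finset.card_image_le
      _ ≤ (Real.exp 1 * (2 * ((2 : ℝ) ^ i + 1 + 2))) ^ r :=
          card_filter_l1_le r B (by positivity)
      _ ≤ (Real.exp 1 * (2 * ((2 : ℝ) ^ i + 3))) ^ m := by
          rw [show (2 : ℝ) ^ i + 1 + 2 = 2 ^ i + 3 by ring]
          refine pow_le_pow_right₀ ?_ hm
          have := Real.one_le_exp (zero_le_one' ℝ)
          have : (0 : ℝ) < 2 ^ i := by positivity
          nlinarith
  · set v : S := S.orthogonalProjectionOnto u with hv
    set a : Fin r → ℝ := fun j => b.repr v j with ha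
    have hva : v = ∑ j, a j • b j := (b.sum_repr v).symm
    have hvn : ‖v‖ ≤ 1 := le_trans (S.norm_orthogonalProjectionOnto_apply_le u) hu
    have hasum : ∑ j, a j ^ 2 = ‖v‖ ^ 2 := by
      rw [← b.repr.norm_map v, EuclideanSpace.norm_sq_eq]
      simp [ha, Real.norm_eq_abs, sq_abs]
      rfl
    set n : Fin r → ℤ := fun j => ⌊a j * c⌋ with hn
    have hc0 : 0 ≤ c := by positivity
    have hnsum : ∑ j, |(n j : ℝ)| ≤ r * (2 ^ i + 1) := by
      calc ∑ j, |(n j : ℝ)| ≤ ∑ j, (|a j| * c + 1) := by
            refine Finset.sum_le_sum fun j _ => ?_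
            have h1 := Int.floor_le (a j * c)
            have h2 := Int.lt_floor_add_one (a j * c)
            have h3 := mul_le_mul_of_nonneg_right (le_abs_self (a j)) hc0
            have h4 := mul_le_mul_of_nonneg_right (neg_abs_le (a j)) hc0
            simp only [hn]
            rw [abs_le]
            constructor <;> nlinarith
        _ = (∑ j, |a j|) * c + r := by simp [Finset.sum_add_distrib, Finset.sum_mul]
        _ ≤ √(r : ℝ) * 1 * c + r := by
            gcongr
            refine le_trans (sum_abs_le_sqrt_mul_norm a) ?_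
            gcongr
            rw [hasum, Real.sqrt_sq (norm_nonneg _)]
            exact hvn
        _ = r * (2 ^ i + 1) := by
            rw [hc, mul_one, mul_left_comm, Real.mul_self_sqrt (by positivity)]
            ring
    have hnT : n ∈ T := by
      rw [hT, Finset.mem_filter]
      refine ⟨?_, hnsum⟩
      simp only [intBox, Fintype.mem_piFinset, Finset.mem_Icc]
      intro j
      have h1 : |(n j : ℝ)| ≤ (B : ℝ) :=
        le_trans (le_trans (Finset.single_le_sum (f := fun j => |(n j : ℝ)|)
          (fun k _ => abs_nonneg _) (Finset.mem_univ j)) hnsum) (Nat.le_ceil _)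
      have h2 : |n j| ≤ (B : ℤ) := by exact_mod_cast h1
      exact abs_le.1 h2
    refine ⟨_, Finset.mem_image.2 ⟨n, hnT, rfl⟩, ?_⟩
    set z : S := ∑ j, ((n j : ℝ) / c) • b j
    have hvz : ‖v - z‖ ≤ 1 / 2 ^ i := by
      rcases Nat.eq_zero_or_pos r with h0 | h0
      · haveI : IsEmpty (Fin r) := by rw [h0]; infer_instance
        have : v - z = 0 := by rw [hva]; simp [z]
        simp [this]
      have hcpos : 0 < c := by positivity
      have e : v - z = ∑ j, (a j - (n j : ℝ) / c) • b j := by
        rw [hva, ← Finset.sum_sub_distrib]; simp [sub_smul]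
      rw [e]
      refine abs_le_of_sq_le_sq' ?_ (by positivity) |>.2
      rw [← real_inner_self_eq_norm_sq, b.orthonormal.inner_sum _ _ univ]
      calc ∑ j, (a j - (n j : ℝ) / c) * (a j - (n j : ℝ) / c)
          ≤ ∑ _j : Fin r, (1 / c) * (1 / c) := by
            refine Finset.sum_le_sum fun j _ => ?_
            have h1 := Int.floor_le (a j * c)
            have h2 := Int.lt_floor_add_one (a j * c)
            have h3 : a j - (n j : ℝ) / c = (a j * c - n j) / c := by field_simp
            rw [h3]
            have h4 : (a j * c - n j) / c ≤ 1 / c := by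
              gcongr
              simp only [hn]; linarith
            have h5 : 0 ≤ (a j * c - n j) / c := div_nonneg (by simp only [hn]; linarith) hc0
            exact mul_le_mul h4 h4 h5 (by positivity)
        _ = (1 / 2 ^ i) ^ 2 := by
            rw [Finset.sum_const, Finset.card_univ, Fintype.card_fin, nsmul_eq_mul, hc]
            field_simp
            rw [Real.sq_sqrt (by positivity)]
    have hz : S.starProjection u = (v : Vec d) := rfl
    have hsplit : u - ((u0 - S.starProjection u0) + (z : Vec d)) =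
        ((u - u0) - S.starProjection (u - u0)) + ((v - z : S) : Vec d) := by
      rw [map_sub, hz, Submodule.coe_sub]
      abel
    rw [hsplit]
    calc _ ≤ ‖(u - u0) - S.starProjection (u - u0)‖ + ‖((v - z : S) : Vec d)‖ := norm_add_le _ _
      _ ≤ 1 / 2 ^ i + 1 / 2 ^ i := add_le_add hdist hvz
      _ = 2 / 2 ^ i := by ring

/-- The normalised box kernel of width `h`. -/
def boxKer (h x : ℝ) : ℝ≥0∞ :=
  ENNReal.ofReal (2 * h)⁻¹ * (Set.Ioo (-h) h).indicator 1 x

@[fun_prop]
theorem measurable_boxKer (h : ℝ) : Measurable (boxKer h) :=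
  measurable_const.mul (measurable_one.indicator measurableSet_Ioo)

theorem lintegral_boxKer {h : ℝ} (hh : 0 < h) : ∫⁻ x, boxKer h x = 1 := by
  simp only [boxKer]
  rw [lintegral_const_mul _ (measurable_one.indicator measurableSet_Ioo),
    lintegral_indicator_one measurableSet_Ioo, Real.volume_Ioo, ← ENNReal.ofReal_mul (by positivity)]
  rw [show (2 * h)⁻¹ * (h - -h) = 1 by field_simp; ring, ENNReal.ofReal_one]

/-- The distance of `v i` to the span of the earlier vectors. -/
def perp {m : ℕ} (v : Fin m → Vec d) (i : Fin m) : ℝ :=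
  ‖v i - (Submodule.span ℝ (v '' {l | l < i})).starProjection (v i)‖

theorem perp_castSucc {m : ℕ} (v : Fin (m + 1) → Vec d) (i : Fin m) :
    perp v i.castSucc = perp (fun l => v l.castSucc) i := by
  have e : v '' {l | l < i.castSucc} = (fun l : Fin m => v l.castSucc) '' {l | l < i} := by
    ext x
    constructor
    · rintro ⟨l, hl, rfl⟩
      refine ⟨⟨l, lt_of_lt_of_le (Fin.lt_def.1 hl) i.2.le⟩, ?_, rfl⟩
      exact Fin.lt_def.2 (Fin.lt_def.1 hl)
    · rintro ⟨l, hl, rfl⟩
      exact ⟨l.castSucc, Fin.castSucc_lt_castSucc_iff.2 hl, rfl⟩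
  simp only [perp, e]

/-- One Gaussian vector projected on several directions: smoothed point densities. -/
theorem proj_prod_le {h : ℝ} (hh : 0 < h) :
    ∀ {m : ℕ} (v : Fin m → Vec d) (a : Fin m → ℝ),
      ∫⁻ z, ∏ i, boxKer h (a i - ⟪z, v i⟫) ∂stdGaussian (Vec d) ≤
        ∏ i, (ENNReal.ofReal (perp v i))⁻¹ := by
  intro m
  induction m with
  | zero => intro v a; simp
  | succ m ih =>
    intro v a
    set S := Submodule.span ℝ (v '' {l | l < Fin.last m}) with hS
    set δ := perp v (Fin.last m) with hδ
    have ih' := ih (fun i => v i.castSucc) (fun i => a i.castSucc)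
    rcases eq_or_lt_of_le (show 0 ≤ δ from norm_nonneg _) with h0 | hpos
    · refine le_of_le_of_eq le_top ?_
      symm
      rw [Fin.prod_univ_castSucc, ← hδ, ← h0, ENNReal.ofReal_zero, ENNReal.inv_zero,
        ENNReal.mul_top]
      refine Finset.prod_ne_zero_iff.2 fun i _ => ?_
      exact ENNReal.inv_ne_zero.2 ENNReal.ofReal_ne_top
    set e := δ⁻¹ • (v (Fin.last m) - S.starProjection (v (Fin.last m))) with he
    have he1 : ‖e‖ = 1 := by
      rw [he, norm_smul, norm_inv, Real.norm_eq_abs, abs_of_pos hpos]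
      exact inv_mul_cancel₀ hpos.ne'
    have horth : ∀ w ∈ S, ⟪e, w⟫ = 0 := by
      intro w hw
      rw [he, real_inner_smul_left, Submodule.starProjection_inner_eq_zero _ w hw, mul_zero]
    have hlast : ⟪e, v (Fin.last m)⟫ = δ := by
      have : ⟪e, S.starProjection (v (Fin.last m))⟫ = 0 :=
        horth _ (Submodule.starProjection_apply_mem _ _)
      rw [← sub_zero ⟪e, v (Fin.last m)⟫, ← this, ← inner_sub_right]
      conv_lhs => rw [he]
      rw [real_inner_smul_left, real_inner_self_eq_norm_sq]
      change δ⁻¹ * δ ^ 2 = δ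
      field_simp
    have hcast : ∀ i : Fin m, ⟪e, v i.castSucc⟫ = 0 := fun i =>
      horth _ (Submodule.subset_span ⟨i.castSucc, Fin.castSucc_lt_last i, rfl⟩)
    conv_lhs => rw [← stdGaussian_resample e he1]
    rw [lintegral_map (by fun_prop) (by fun_prop), lintegral_prod _ (by fun_prop)]
    have hstep : ∀ (z : Vec d) (t : ℝ),
        ∏ i, boxKer h (a i - ⟪z - ⟪z, e⟫ • e + t • e, v i⟫) =
          (∏ i : Fin m, boxKer h (a i.castSucc - ⟪z, v i.castSucc⟫)) *
            boxKer h ((a (Fin.last m) - ⟪z, v (Fin.last m)⟫ + ⟪z, e⟫ * δ) - δ * t) := by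
      intro z t
      rw [Fin.prod_univ_castSucc]
      congr 1
      · refine Finset.prod_congr rfl fun i _ => ?_
        simp [inner_add_left, inner_sub_left, real_inner_smul_left, hcast i]
      · simp only [inner_add_left, inner_sub_left, real_inner_smul_left, hlast]
        congr 1
        ring
    simp_rw [hstep]
    calc ∫⁻ z, ∫⁻ t, (∏ i : Fin m, boxKer h (a i.castSucc - ⟪z, v i.castSucc⟫)) *
          boxKer h ((a (Fin.last m) - ⟪z, v (Fin.last m)⟫ + ⟪z, e⟫ * δ) - δ * t)
          ∂gaussianReal 0 1 ∂stdGaussian (Vec d)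
        ≤ ∫⁻ z, (∏ i : Fin m, boxKer h (a i.castSucc - ⟪z, v i.castSucc⟫)) *
            (ENNReal.ofReal δ)⁻¹ ∂stdGaussian (Vec d) := by
          refine lintegral_mono fun z => ?_
          rw [lintegral_const_mul _ (by fun_prop)]
          gcongr
          set b := a (Fin.last m) - ⟪z, v (Fin.last m)⟫ + ⟪z, e⟫ * δ
          calc ∫⁻ t, boxKer h (b - δ * t) ∂gaussianReal 0 1
              ≤ ∫⁻ t, boxKer h (b - δ * t) := by
                rw [gaussianReal_of_var_ne_zero _ one_ne_zero,
                  lintegral_withDensity_eq_lintegral_mul _ (measurable_gaussianPDF _ _)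
                    (by fun_prop)]
                refine lintegral_mono fun t => ?_
                refine le_of_le_of_eq (mul_le_mul_left ?_ _) (one_mul _)
                rw [gaussianPDF, ENNReal.ofReal_le_one, gaussianPDFReal, NNReal.coe_one]
                refine mul_le_one₀ (inv_le_one_of_one_le₀ ?_) (Real.exp_pos _).le ?_
                · rw [Real.one_le_sqrt]
                  linarith [Real.two_le_pi]
                · refine Real.exp_le_one_iff.2 ?_
                  rw [neg_div]
                  have : 0 ≤ (t - 0) ^ 2 / (2 * 1) := by positivity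
                  linarith
            _ = (ENNReal.ofReal δ)⁻¹ := by
                have e1 : ∀ t, boxKer h (b - δ * t) = ENNReal.ofReal (2 * h)⁻¹ *
                    (Set.Ioo ((b - h) / δ) ((b + h) / δ)).indicator 1 t := by
                  intro t
                  simp only [boxKer]
                  congr 1
                  refine Set.indicator_eq_indicator ?_ rfl
                  simp only [Set.mem_Ioo]
                  rw [div_lt_iff₀ hpos, lt_div_iff₀ hpos]
                  constructor <;> rintro ⟨h1, h2⟩ <;> constructor <;> linarith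
                simp_rw [e1]
                rw [lintegral_const_mul _ (measurable_one.indicator measurableSet_Ioo),
                  lintegral_indicator_one measurableSet_Ioo, Real.volume_Ioo,
                  ← ENNReal.ofReal_mul (by positivity), ← ENNReal.ofReal_inv_of_pos hpos]
                congr 1
                field_simp
                ring
      _ ≤ (∏ i : Fin m, (ENNReal.ofReal (perp (fun l => v l.castSucc) i))⁻¹) *
            (ENNReal.ofReal δ)⁻¹ := by
          rw [lintegral_mul_const _ (by fun_prop)]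
          gcongr
      _ = _ := by
          rw [Fin.prod_univ_castSucc]
          simp_rw [perp_castSucc]
          rfl

/-- Dyadic layer bound for negative powers. -/
theorem inv_pow_le_layers {x : ℝ} (hx : 0 ≤ x) (n : ℕ) :
    (ENNReal.ofReal x)⁻¹ ^ n ≤
      1 + ∑' i : ℕ, (if x ≤ 1 / 2 ^ i then (2 : ℝ≥0∞) ^ ((i + 1) * n) else 0) := by
  rcases le_or_gt 1 x with h1 | h1
  · refine le_trans (pow_le_one₀ bot_le ?_) le_self_add
    rw [ENNReal.inv_le_one, ENNReal.one_le_ofReal]
    exact h1
  rcases eq_or_lt_of_le hx with h0 | hpos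
  · rcases Nat.eq_zero_or_pos n with hn | hn
    · subst hn; simp
    refine le_trans ?_ le_add_self
    subst h0
    refine le_top.trans (le_of_eq ?_)
    symm
    refine le_antisymm le_top (le_trans (le_of_eq (ENNReal.tsum_const_eq_top_of_ne_zero
      (α := ℕ) one_ne_zero).symm) (ENNReal.tsum_le_tsum fun i => ?_))
    rw [if_pos (by positivity)]
    exact one_le_pow₀ (by norm_num)
  obtain ⟨i, hi1, hi2⟩ := exists_nat_pow_near_of_lt_one hpos h1.le (show (0 : ℝ) < 1 / 2 by norm_num)
    (by norm_num)
  rw [one_div_pow] at hi1 hi2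
  refine le_trans ?_ (le_trans (ENNReal.le_tsum i) le_add_self)
  rw [if_pos hi2, ← ENNReal.ofReal_inv_of_pos hpos, pow_mul]
  gcongr
  rw [show (2 : ℝ≥0∞) = ENNReal.ofReal 2 by norm_num, ← ENNReal.ofReal_pow (by norm_num)]
  refine ENNReal.ofReal_le_ofReal ?_
  rw [inv_le_comm₀ hpos (by positivity), ← one_div]
  exact hi1.le

end Vale.Agent.P309
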