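import Mathlib

/-!
An information bound: if every test of a finite partition of unity has a second moment controlled
by a reference weight, then the tests carry little information.
-/

noncomputable section

open MeasureTheory Finset

namespace Vale.Agent.P309

theorem mul_log_ratio_le {x y : ℝ} (hx : 0 ≤ x) (hy : 0 < y) :
    x * (Real.log y - Real.log x) ≤ y - x := by
  rcases eq_or_lt_of_le hx with h | h
  · subst h; simpa using hy.le
  rw [← Real.log_div hy.ne' h.ne']
  calc x * Real.log (y / x) ≤ x * (y / x - 1) :=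
        mul_le_mul_of_nonneg_left (Real.log_le_sub_one_of_pos (div_pos hy h)) hx
    _ = y - x := by field_simp

/-- Entropy of finitely many weights with total at most `P`. -/
theorem sum_negMulLog_le {O : Type*} {R : Finset O} {K : ℕ} (hR : R.card ≤ K) {q : O → ℝ}
    (hq : ∀ o, 0 ≤ q o) {P : ℝ} (hP : ∑ o ∈ R, q o ≤ P) :
    ∑ o ∈ R, Real.negMulLog (q o) ≤ P * Real.log K + 1 := by
  rcases Nat.eq_zero_or_pos K with hK | hK
  · subst hK
    simp [Finset.card_eq_zero.1 (Nat.le_zero.1 hR)]
  have hK' : (0 : ℝ) < K := by exact_mod_cast hK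
  calc ∑ o ∈ R, Real.negMulLog (q o) ≤ ∑ o ∈ R, (q o * Real.log K + 1 / K) := by
        refine Finset.sum_le_sum fun o _ => ?_
        have := mul_log_ratio_le (hq o) (show (0 : ℝ) < 1 / K by positivity)
        rw [one_div, Real.log_inv] at this
        have := hq o
        rw [Real.negMulLog, one_div]
        linarith
    _ = (∑ o ∈ R, q o) * Real.log K + R.card * (1 / K) := by
        rw [Finset.sum_add_distrib, Finset.sum_mul, Finset.sum_const, nsmul_eq_mul]
    _ ≤ P * Real.log K + 1 := by
        gcongr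
        rw [mul_one_div, div_le_one hK']
        exact_mod_cast hR

/-- The pointwise bound behind `info_le`. -/
theorem info_pointwise {g a π c b : ℝ} (ha : 0 ≤ a) (hag : a ≤ g) (hg1 : g ≤ 1) (hπ : 0 < π)
    (hcπ : c ≤ π) (hac : a = 0 ∨ (0 < c ∧ 0 < b)) :
    g * Real.log g - g * Real.log π ≤
      a * Real.log b + a ^ 2 / (c * b) - a + (g - a) + (g - a) * -Real.log π := by
  rcases eq_or_lt_of_le (le_trans ha hag) with hg0 | hg
  · have ha0 : a = 0 := le_antisymm (hg0 ▸ hag) ha
    subst ha0
    simp [← hg0]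
  have hb : (g - a) * Real.log g ≤ 0 :=
    mul_nonpos_of_nonneg_of_nonpos (by linarith) (Real.log_nonpos hg.le hg1)
  rcases eq_or_lt_of_le ha with ha0 | hapos
  · subst ha0
    simp only [sub_zero, zero_mul, zero_add] at hb ⊢
    simp only [ne_eq, OfNat.ofNat_ne_zero, not_false_eq_true, zero_pow, zero_div, zero_sub,
      neg_zero, zero_add]
    nlinarith
  obtain ⟨hc, hb'⟩ := hac.resolve_left hapos.ne'
  have h1 := mul_log_ratio_le ha hg
  have h2 : a * (Real.log a - Real.log c - Real.log b) ≤ a ^ 2 / (c * b) - a := by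
    have := mul_le_mul_of_nonneg_left
      (Real.log_le_sub_one_of_pos (show 0 < a / (c * b) by positivity)) ha
    rw [Real.log_div hapos.ne' (by positivity), Real.log_mul hc.ne' hb'.ne'] at this
    calc a * (Real.log a - Real.log c - Real.log b)
        = a * (Real.log a - (Real.log c + Real.log b)) := by ring
      _ ≤ a * (a / (c * b) - 1) := this
      _ = a ^ 2 / (c * b) - a := by ring
  have h3 : a * (Real.log c - Real.log π) ≤ 0 :=
    mul_nonpos_of_nonneg_of_nonpos ha (sub_nonpos.2 (Real.log_le_log hc hcπ))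
  nlinarith

/-- The information carried by the tests `g`. -/
theorem info_le {α O : Type*} [Fintype O] [MeasurableSpace α] (ν : Measure α)
    [IsProbabilityMeasure ν] (g gg : O → α → ℝ) (hgm : ∀ o, Measurable (g o))
    (hggm : ∀ o, Measurable (gg o)) (h0 : ∀ o s, 0 ≤ gg o s) (hle : ∀ o s, gg o s ≤ g o s)
    (h1 : ∀ s, ∑ o, g o s = 1) {R : Finset O} {K : ℕ} (hR : R.card ≤ K)
    (hout : ∀ o, o ∉ R → ∀ s, g o s = 0)
    {pb : ℝ} (hpb : ∫ s, ∑ o, (g o s - gg o s) ∂ν ≤ pb) (hpb1 : pb ≤ 1) {lam : O → ℝ}
    (hlam : ∀ o, 0 ≤ lam o) (hlamsum : ∑ o, lam o ≤ 1) {A β : ℝ} (hA : 1 ≤ A) (hβ0 : 0 ≤ β)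
    (hβ1 : β ≤ 1) (hL2 : ∀ o, ∫ s, gg o s ^ 2 ∂ν ≤ A * lam o ^ (2 * β)) :
    ∑ o, (∫ s, g o s * Real.log (g o s) ∂ν -
        (∫ s, g o s ∂ν) * Real.log (∫ s, g o s ∂ν)) ≤
      Real.log A + (2 - 2 * β) * (Real.log K + 1) + pb * Real.log K + 4 := by
  have hgnn : ∀ o s, 0 ≤ g o s := fun o s => le_trans (h0 o s) (hle o s)
  have hg1 : ∀ o s, g o s ≤ 1 := fun o s =>
    (Finset.single_le_sum (fun o' _ => hgnn o' s) (Finset.mem_univ o)).trans_eq (h1 s)
  have hgg1 : ∀ o s, gg o s ≤ 1 := fun o s => le_trans (hle o s) (hg1 o s)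
  have intg : ∀ (h : α → ℝ), Measurable h → ∀ C, (∀ s, |h s| ≤ C) → Integrable h ν :=
    fun h hh C hC => Integrable.of_bound hh.aestronglyMeasurable C
      (ae_of_all _ fun s => by simpa [Real.norm_eq_abs] using hC s)
  have ig : ∀ o, Integrable (g o) ν := fun o =>
    intg _ (hgm o) 1 fun s => by rw [abs_of_nonneg (hgnn o s)]; exact hg1 o s
  have igg : ∀ o, Integrable (gg o) ν := fun o =>
    intg _ (hggm o) 1 fun s => by rw [abs_of_nonneg (h0 o s)]; exact hgg1 o s
  have igg2 : ∀ o, Integrable (fun s => gg o s ^ 2) ν := fun o =>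
    intg _ ((hggm o).pow_const 2) 1 fun s => by
      rw [abs_of_nonneg (sq_nonneg _)]; exact pow_le_one₀ (h0 o s) (hgg1 o s)
  have igl : ∀ o, Integrable (fun s => g o s * Real.log (g o s)) ν := by
    intro o
    refine intg _ ((hgm o).mul (Real.measurable_log.comp (hgm o))) 1 fun s => ?_
    rcases eq_or_lt_of_le (hgnn o s) with h | h
    · simp [← h]
    · rw [abs_mul, abs_of_pos h, abs_of_nonpos (Real.log_nonpos h.le (hg1 o s))]
      have := mul_log_ratio_le h.le one_pos
      rw [Real.log_one] at this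
      linarith
  set π : O → ℝ := fun o => ∫ s, g o s ∂ν with hπ
  set πg : O → ℝ := fun o => ∫ s, gg o s ∂ν with hπg
  have hπg0 : ∀ o, 0 ≤ πg o := fun o => integral_nonneg (h0 o)
  have hπgle : ∀ o, πg o ≤ π o := fun o => integral_mono (igg o) (ig o) (hle o)
  have hπ1 : ∀ o, π o ≤ 1 := fun o =>
    (integral_mono (ig o) (integrable_const 1) (hg1 o)).trans_eq (by simp)
  have hπsum : ∑ o, π o = 1 := by
    simp only [hπ]
    rw [← integral_finsetSum _ (fun o _ => ig o)]
    simp [h1]
  have hπgsum : ∑ o, πg o ≤ 1 := (Finset.sum_le_sum fun o _ => hπgle o).trans_eq hπsum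
  have hπbsum : ∑ o, (π o - πg o) ≤ pb := by
    refine le_of_eq_of_le ?_ hpb
    simp only [hπ, hπg]
    rw [integral_finsetSum _ (fun o _ => (ig o).sub' (igg o))]
    exact Finset.sum_congr rfl fun o _ => (integral_sub (ig o) (igg o)).symm
  -- each term
  have hterm : ∀ o, ∫ s, g o s * Real.log (g o s) ∂ν - π o * Real.log (π o) ≤
      πg o * Real.log A + 2 * lam o + (2 - 2 * β) * Real.negMulLog (πg o) + (π o - πg o) +
        Real.negMulLog (π o - πg o) := by
    intro o
    rcases eq_or_lt_of_le (le_trans (hπg0 o) (hπgle o)) with hp0 | hppos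
    · have hpg : πg o = 0 := le_antisymm (hp0 ▸ hπgle o) (hπg0 o)
      have hz : g o =ᵐ[ν] 0 := (integral_eq_zero_iff_of_nonneg (hgnn o) (ig o)).1 hp0.symm
      have : ∫ s, g o s * Real.log (g o s) ∂ν = 0 :=
        integral_eq_zero_of_ae (hz.mono fun s hs => by simp [hs])
      rw [this, ← hp0, hpg]
      simp [hlam o]
    set t := πg o + lam o with ht
    set b := A * t ^ (2 * β) / πg o ^ 2 with hb
    have hac : ∀ᵐ s ∂ν, gg o s = 0 ∨ (0 < πg o ∧ 0 < b) := by
      rcases eq_or_lt_of_le (hπg0 o) with h | h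
      · exact ((integral_eq_zero_iff_of_nonneg (h0 o) (igg o)).1 h.symm).mono fun s hs => Or.inl hs
      · refine ae_of_all _ fun s => Or.inr ⟨h, ?_⟩
        have : 0 < t := by have := hlam o; linarith
        positivity
    have hint : ∫ s, (g o s * Real.log (g o s) - g o s * Real.log (π o)) ∂ν ≤
        ∫ s, (gg o s * Real.log b + gg o s ^ 2 / (πg o * b) - gg o s + (g o s - gg o s) +
          (g o s - gg o s) * -Real.log (π o)) ∂ν := by
      refine integral_mono_ae ((igl o).sub' ((ig o).mul_const _)) ?_ ?_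
      · exact (((((igg o).mul_const _).add ((igg2 o).div_const _)).sub (igg o)).add
          ((ig o).sub (igg o))).add (((ig o).sub (igg o)).mul_const _)
      · filter_upwards [hac] with s hs
        exact info_pointwise (h0 o s) (hle o s) (hg1 o s) hppos (hπgle o) hs
    have e2 : ∫ s, (g o s - gg o s) * -Real.log (π o) ∂ν = (π o - πg o) * -Real.log (π o) := by
      rw [integral_mul_const, integral_sub (ig o) (igg o)]
    rw [integral_sub (igl o) ((ig o).mul_const _), integral_mul_const] at hint
    rw [integral_add _ (((ig o).sub' (igg o)).mul_const _), e2,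
      integral_add _ ((ig o).sub' (igg o)), integral_sub (ig o) (igg o),
      integral_sub _ (igg o), integral_add ((igg o).mul_const _) ((igg2 o).div_const _),
      integral_mul_const, integral_div] at hint
    rotate_left
    · exact ((igg o).mul_const _).add ((igg2 o).div_const _)
    · exact (((igg o).mul_const _).add ((igg2 o).div_const _)).sub' (igg o)
    · exact ((((igg o).mul_const _).add ((igg2 o).div_const _)).sub' (igg o)).add
        ((ig o).sub' (igg o))
    refine le_trans hint ?_
    have hbad : (π o - πg o) * -Real.log (π o) ≤ Real.negMulLog (π o - πg o) := by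
      rcases eq_or_lt_of_le (sub_nonneg.2 (hπgle o)) with h | h
      · simp [← h]
      · rw [Real.negMulLog]
        have := Real.log_le_log h (by linarith [hπg0 o] : π o - πg o ≤ π o)
        nlinarith
    rcases eq_or_lt_of_le (hπg0 o) with hg0 | hgpos
    · have hz : gg o =ᵐ[ν] 0 := (integral_eq_zero_iff_of_nonneg (h0 o) (igg o)).1 hg0.symm
      have h2 : ∫ s, gg o s ^ 2 ∂ν = 0 :=
        integral_eq_zero_of_ae (hz.mono fun s hs => by simp [hs])
      have e : πg o = 0 := hg0.symm
      simp only [hπg] at e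
      simp only [hπ, hπg, e, h2] at *
      simp only [zero_mul, zero_div, add_zero, sub_zero, zero_add, mul_zero,
        Real.negMulLog_zero] at *
      linarith [hlam o]
    have htpos : 0 < t := by have := hlam o; linarith
    have hratio : (∫ s, gg o s ^ 2 ∂ν) / (πg o * b) ≤ πg o := by
      rw [div_le_iff₀ (by positivity)]
      calc ∫ s, gg o s ^ 2 ∂ν ≤ A * lam o ^ (2 * β) := hL2 o
        _ ≤ A * t ^ (2 * β) := by
            gcongr
            · exact hlam o
            · linarith
        _ = πg o * (πg o * b) := by rw [hb]; field_simp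
    have hlogb : πg o * Real.log b ≤ πg o * Real.log A + 2 * lam o +
        (2 - 2 * β) * Real.negMulLog (πg o) := by
      rw [hb, Real.log_div (by positivity) (by positivity),
        Real.log_mul (by positivity) (by positivity), Real.log_rpow htpos, Real.log_pow]
      have h4 : πg o * (Real.log t - Real.log (πg o)) ≤ lam o := by
        have := mul_log_ratio_le (hπg0 o) htpos
        linarith
      have h5 : 0 ≤ πg o * (Real.log t - Real.log (πg o)) := by
        refine mul_nonneg (hπg0 o) (sub_nonneg.2 (Real.log_le_log hgpos ?_))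
        have := hlam o
        linarith
      rw [Real.negMulLog]
      push_cast
      nlinarith
    linarith
  refine le_trans (Finset.sum_le_sum fun o _ => hterm o) ?_
  have hRz : ∀ o, o ∉ R → π o = 0 ∧ πg o = 0 := by
    intro o ho
    have h : π o = 0 := by simp [hπ, hout o ho]
    exact ⟨h, le_antisymm (h ▸ hπgle o) (hπg0 o)⟩
  have hS1 : ∑ o, Real.negMulLog (πg o) = ∑ o ∈ R, Real.negMulLog (πg o) :=
    (Finset.sum_subset (Finset.subset_univ R) fun o _ ho => by simp [(hRz o ho).2]).symm
  have hS2 : ∑ o, Real.negMulLog (π o - πg o) = ∑ o ∈ R, Real.negMulLog (π o - πg o) :=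
    (Finset.sum_subset (Finset.subset_univ R) fun o _ ho => by
      simp [(hRz o ho).1, (hRz o ho).2]).symm
  have hE1 := sum_negMulLog_le hR hπg0 (P := 1) (le_trans
    (Finset.sum_le_sum_of_subset_of_nonneg (Finset.subset_univ R) fun o _ _ => hπg0 o) hπgsum)
  have hE2 := sum_negMulLog_le hR (fun o => sub_nonneg.2 (hπgle o)) (P := pb) (le_trans
    (Finset.sum_le_sum_of_subset_of_nonneg (Finset.subset_univ R)
      fun o _ _ => sub_nonneg.2 (hπgle o)) hπbsum)
  rw [Finset.sum_add_distrib, Finset.sum_add_distrib, Finset.sum_add_distrib,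
    Finset.sum_add_distrib, ← Finset.sum_mul, ← Finset.mul_sum, ← Finset.mul_sum, hS1, hS2]
  have hlogA : 0 ≤ Real.log A := Real.log_nonneg hA
  nlinarith

end Vale.Agent.P309
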