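import Vale.Agent.P309.Basic

/-!
Gaussian facts: the cap bound on the sphere, the splitting of a standard Gaussian along a unit
vector, and the tail of a projected point.
-/

noncomputable section

open MeasureTheory ProbabilityTheory Finset
open scoped RealInnerProductSpace ENNReal NNReal

namespace Vale.Agent.P309

variable {d : ℕ}

/-- Replacing the component along a unit vector `e` by an independent standard Gaussian keeps
the standard Gaussian law. -/
theorem stdGaussian_resample (e : Vec d) (he : ‖e‖ = 1) :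
    ((stdGaussian (Vec d)).prod (gaussianReal 0 1)).map
      (fun p => p.1 - ⟪p.1, e⟫ • e + p.2 • e) = stdGaussian (Vec d) := by
  have hm : Measurable fun p : Vec d × ℝ => p.1 - ⟪p.1, e⟫ • e + p.2 • e := by fun_prop
  haveI : IsProbabilityMeasure (((stdGaussian (Vec d)).prod (gaussianReal 0 1)).map
      (fun p => p.1 - ⟪p.1, e⟫ • e + p.2 • e)) := Measure.isProbabilityMeasure_map hm.aemeasurable
  apply Measure.ext_of_charFun
  ext w
  rw [charFun_apply, integral_map hm.aemeasurable (by fun_prop), charFun_stdGaussian]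
  have hsplit : ∀ p : Vec d × ℝ,
      Complex.exp (⟪p.1 - ⟪p.1, e⟫ • e + p.2 • e, w⟫ * Complex.I) =
      Complex.exp (⟪p.1, w - ⟪e, w⟫ • e⟫ * Complex.I) *
        Complex.exp ((⟪e, w⟫ : ℝ) * p.2 * Complex.I) := by
    intro p
    rw [← Complex.exp_add]
    congr 1
    simp only [inner_add_left, inner_sub_left, inner_sub_right, real_inner_smul_left,
      real_inner_smul_right]
    push_cast
    ring
  simp_rw [hsplit]
  rw [integral_prod_mul (f := fun z : Vec d => Complex.exp (⟪z, w - ⟪e, w⟫ • e⟫ * Complex.I))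
    (g := fun t : ℝ => Complex.exp ((⟪e, w⟫ : ℝ) * t * Complex.I)),
    ← charFun_apply (μ := stdGaussian (Vec d)), charFun_stdGaussian,
    ← charFun_apply_real (μ := gaussianReal 0 1), charFun_gaussianReal, ← Complex.exp_add]
  congr 1
  have hn : ‖w - ⟪e, w⟫ • e‖ ^ 2 + ⟪e, w⟫ ^ 2 = ‖w‖ ^ 2 := by
    rw [norm_sub_sq_real, real_inner_smul_right, norm_smul, he, mul_one, Real.norm_eq_abs, sq_abs,
      real_inner_comm w e]
    ring
  have hnc : ((‖w - ⟪e, w⟫ • e‖ : ℂ)) ^ 2 + ((⟪e, w⟫ : ℝ) : ℂ) ^ 2 = (‖w‖ : ℂ) ^ 2 := by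
    exact_mod_cast hn
  simp only [Complex.ofReal_zero, mul_zero, zero_mul, NNReal.coe_one, Complex.ofReal_one, one_mul]
  linear_combination (-1 / 2 : ℂ) * hnc

/-- A function of `⟪z, u⟫` integrates as for a centred real Gaussian. -/
theorem map_inner_stdGaussian (u : Vec d) :
    (stdGaussian (Vec d)).map (fun z => ⟪z, u⟫) =
      (gaussianReal 0 1).map (fun t => ‖u‖ * t) := by
  have hm : Measurable fun z : Vec d => ⟪z, u⟫ := by fun_prop
  haveI := Measure.isProbabilityMeasure_map (μ := stdGaussian (Vec d)) hm.aemeasurable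
  haveI := Measure.isProbabilityMeasure_map (μ := gaussianReal 0 1)
    (f := fun t => ‖u‖ * t) (by fun_prop)
  apply Measure.ext_of_charFun
  ext t
  rw [charFun_map_mul, charFun_gaussianReal, charFun_apply_real,
    integral_map hm.aemeasurable (by fun_prop)]
  have : ∀ z : Vec d, Complex.exp (t * ⟪z, u⟫ * Complex.I) =
      Complex.exp (⟪z, t • u⟫ * Complex.I) := by
    intro z; rw [real_inner_smul_right]; push_cast; ring_nf
  simp_rw [this]
  rw [← charFun_apply, charFun_stdGaussian, norm_smul, Real.norm_eq_abs]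
  congr 1
  have : ((|t| : ℝ) : ℂ) ^ 2 = (t : ℂ) ^ 2 := by exact_mod_cast sq_abs t
  push_cast
  linear_combination (-((‖u‖ : ℂ) ^ 2) / 2) * this

/-- Tail of `k` independent projections of one point of the unit ball. -/
theorem proj_tail {ι : Type*} [Fintype ι] (u : Vec d) (hu : ‖u‖ ≤ 1) (R : ℝ) :
    (Measure.pi fun _ : ι => stdGaussian (Vec d)) {X | R < ∑ i, ⟪X i, u⟫ ^ 2} ≤
      ENNReal.ofReal (Real.exp (-R / 4) * 2 ^ Fintype.card ι) := by
  have hset : MeasurableSet {X : ι → Vec d | R < ∑ i, ⟪X i, u⟫ ^ 2} :=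
    measurableSet_lt measurable_const (by fun_prop)
  calc (Measure.pi fun _ : ι => stdGaussian (Vec d)) {X | R < ∑ i, ⟪X i, u⟫ ^ 2}
      = ∫⁻ X, Set.indicator {X | R < ∑ i, ⟪X i, u⟫ ^ 2} 1 X
          ∂Measure.pi fun _ : ι => stdGaussian (Vec d) := (lintegral_indicator_one hset).symm
    _ ≤ ∫⁻ X, ENNReal.ofReal (Real.exp (-R / 4)) *
          ∏ i, ENNReal.ofReal (Real.exp (1 / 4 * ⟪X i, u⟫ ^ 2))
          ∂Measure.pi fun _ : ι => stdGaussian (Vec d) := by
        refine lintegral_mono fun X => ?_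
        by_cases hX : X ∈ {X : ι → Vec d | R < ∑ i, ⟪X i, u⟫ ^ 2}
        · rw [Set.indicator_of_mem hX, Pi.one_apply,
            ← ENNReal.ofReal_prod_of_nonneg (fun i _ => (Real.exp_pos _).le),
            ← ENNReal.ofReal_mul (Real.exp_pos _).le, ← Real.exp_sum, ← Real.exp_add,
            ENNReal.one_le_ofReal]
          refine Real.one_le_exp ?_
          rw [← Finset.mul_sum]
          have : R < ∑ i, ⟪X i, u⟫ ^ 2 := hX
          linarith
        · rw [Set.indicator_of_notMem hX]; exact bot_le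
    _ = ENNReal.ofReal (Real.exp (-R / 4)) *
          ∏ _i : ι, ∫⁻ z, ENNReal.ofReal (Real.exp (1 / 4 * ⟪z, u⟫ ^ 2)) ∂stdGaussian (Vec d) := by
        rw [lintegral_const_mul _ (by fun_prop)]
        congr 1
        exact lintegral_pi_prod_self (stdGaussian (Vec d))
          (fun _ z => ENNReal.ofReal (Real.exp (1 / 4 * ⟪z, u⟫ ^ 2))) (fun i => by fun_prop)
    _ ≤ ENNReal.ofReal (Real.exp (-R / 4)) * ∏ _i : ι, ENNReal.ofReal 2 := by
        gcongr
        rw [← lintegral_map (f := fun y : ℝ => ENNReal.ofReal (Real.exp (1 / 4 * y ^ 2)))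
          (g := fun z : Vec d => ⟪z, u⟫) (by fun_prop) (by fun_prop),
          map_inner_stdGaussian, lintegral_map (by fun_prop) (by fun_prop)]
        refine le_trans (lintegral_mono fun t => ENNReal.ofReal_le_ofReal (Real.exp_le_exp.2 ?_))
          (lintegral_exp_sq_gaussian (a := 1 / 4) (by norm_num) (by norm_num))
        have : ‖u‖ ^ 2 ≤ 1 := pow_le_one₀ (norm_nonneg u) hu
        rw [mul_pow]
        nlinarith [sq_nonneg t]
    _ = _ := by
        rw [Finset.prod_const, ← ENNReal.ofReal_pow (by norm_num),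
          ← ENNReal.ofReal_mul (Real.exp_pos _).le, Finset.card_univ]

theorem exists_unit (hd : 0 < d) : ∃ e : Vec d, ‖e‖ = 1 :=
  ⟨EuclideanSpace.single ⟨0, hd⟩ 1, by simp⟩

theorem exists_basis_with (e : Vec d) (he : ‖e‖ = 1) :
    ∃ (b : OrthonormalBasis (Fin d) ℝ (Vec d)) (i0 : Fin d), b i0 = e := by
  have hd : 0 < d := by
    rcases Nat.eq_zero_or_pos d with h | h
    · subst h
      have : e = 0 := Subsingleton.elim _ _
      simp [this] at he
    · exact h
  have hon : Orthonormal ℝ (Set.restrict {(⟨0, hd⟩ : Fin d)} (fun _ : Fin d => e)) := by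
    rw [orthonormal_iff_ite]
    rintro ⟨i, hi⟩ ⟨j, hj⟩
    simp only [Set.mem_singleton_iff] at hi hj
    subst hi hj
    simp [Set.restrict, he]
  obtain ⟨b, hb⟩ := hon.exists_orthonormalBasis_extension_of_card_eq (by simp)
  exact ⟨b, ⟨0, hd⟩, hb _ rfl⟩

instance isProbabilityMeasure_sphereUniform : IsProbabilityMeasure (sphereUniform d) :=
  Measure.isProbabilityMeasure_map (by fun_prop)

/-- Spherical caps are small. -/
theorem sphereUniform_closedBall_le (hd : 0 < d) (c : Vec d) {r : ℝ} (hr : 0 < r) :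
    sphereUniform d (Metric.closedBall c r) ≤ ENNReal.ofReal (2 * (12 * r) ^ (d - 1)) := by
  by_cases hbig : 1 / 8 ≤ r
  · refine le_trans prob_le_one ?_
    rw [ENNReal.one_le_ofReal]
    have : (1 : ℝ) ≤ (12 * r) ^ (d - 1) := one_le_pow₀ (by linarith)
    linarith
  push_neg at hbig
  set ρ := 2 * r with hρ
  have hm : Measurable fun g : Vec d => ‖g‖⁻¹ • g := by fun_prop
  rw [sphereUniform, Measure.map_apply hm measurableSet_closedBall]
  -- a unit vector controlling the preimage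
  obtain ⟨e, he, hsub⟩ : ∃ e : Vec d, ‖e‖ = 1 ∧
      (fun g : Vec d => ‖g‖⁻¹ • g) ⁻¹' Metric.closedBall c r ⊆
        {g | ‖g‖ ^ 2 - ⟪g, e⟫ ^ 2 ≤ 4 * ρ ^ 2 * ⟪g, e⟫ ^ 2} := by
    by_cases h0 : ∃ g : Vec d, g ≠ 0 ∧ ‖g‖⁻¹ • g ∈ Metric.closedBall c r
    · obtain ⟨g0, hg0, hmem0⟩ := h0
      refine ⟨‖g0‖⁻¹ • g0, norm_smul_inv_norm hg0, fun g hg => ?_⟩
      set e := ‖g0‖⁻¹ • g0 with he'
      have he : ‖e‖ = 1 := norm_smul_inv_norm hg0
      simp only [Set.mem_setOf_eq]
      by_cases hg' : g = 0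
      · subst hg'; simp
      have hn : 0 < ‖g‖ := norm_pos_iff.2 hg'
      have hdist : ‖‖g‖⁻¹ • g - e‖ ≤ ρ := by
        have h1 : dist (‖g‖⁻¹ • g) c ≤ r := hg
        have h2 : dist e c ≤ r := hmem0
        rw [← dist_eq_norm]
        linarith [dist_triangle_right (‖g‖⁻¹ • g) e c]
      have hdist2 : ‖g - ‖g‖ • e‖ ≤ ρ * ‖g‖ := by
        have : g - ‖g‖ • e = ‖g‖ • (‖g‖⁻¹ • g - e) := by
          rw [smul_sub, smul_inv_smul₀ hn.ne']
        rw [this, norm_smul, norm_norm, mul_comm]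
        gcongr
      have hsq : ‖g - ‖g‖ • e‖ ^ 2 = 2 * ‖g‖ ^ 2 - 2 * ‖g‖ * ⟪g, e⟫ := by
        rw [norm_sub_sq_real, real_inner_smul_right, norm_smul, norm_norm, he]
        ring
      have h3 : ‖g - ‖g‖ • e‖ ^ 2 ≤ (ρ * ‖g‖) ^ 2 := pow_le_pow_left₀ (norm_nonneg _) hdist2 2
      rw [hsq] at h3
      have hρ1 : ρ ≤ 1 / 4 := by rw [hρ]; linarith
      have hρ0 : 0 ≤ ρ := by rw [hρ]; linarith
      have ht : ‖g‖ * (1 - ρ ^ 2 / 2) ≤ ⟪g, e⟫ := by
        by_contra hh
        push_neg at hh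
        nlinarith
      have hte : ⟪g, e⟫ ≤ ‖g‖ := by
        calc ⟪g, e⟫ ≤ ‖g‖ * ‖e‖ := real_inner_le_norm _ _
          _ = ‖g‖ := by rw [he, mul_one]
      have htpos : ‖g‖ / 2 ≤ ⟪g, e⟫ := by
        have : ‖g‖ * (1 / 2) ≤ ‖g‖ * (1 - ρ ^ 2 / 2) :=
          mul_le_mul_of_nonneg_left (by nlinarith) hn.le
        linarith
      have h6 : ‖g‖ ^ 2 - ⟪g, e⟫ ^ 2 ≤ ρ ^ 2 * ‖g‖ ^ 2 := by
        have : (‖g‖ - ⟪g, e⟫) * (‖g‖ + ⟪g, e⟫) ≤ (‖g‖ - ⟪g, e⟫) * (2 * ‖g‖) :=
          mul_le_mul_of_nonneg_left (by linarith) (by linarith)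
        nlinarith
      have h7 : ρ ^ 2 * (‖g‖ / 2) ^ 2 ≤ ρ ^ 2 * ⟪g, e⟫ ^ 2 :=
        mul_le_mul_of_nonneg_left (pow_le_pow_left₀ (by positivity) htpos 2) (sq_nonneg ρ)
      nlinarith
    · obtain ⟨e, he⟩ := exists_unit hd
      refine ⟨e, he, fun g hg => ?_⟩
      have : g = 0 := by
        by_contra hg'
        exact h0 ⟨g, hg', hg⟩
      subst this
      simp
  obtain ⟨b, i0, hb⟩ := exists_basis_with e he
  refine le_trans (measure_mono hsub) ?_
  rw [stdGaussian_eq_map_pi_orthonormalBasis b,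
    Measure.map_apply (by fun_prop) (measurableSet_le (by fun_prop) (by fun_prop))]
  set s := 1 / (16 * ρ ^ 2) with hs
  have hρpos : 0 < ρ := by rw [hρ]; linarith
  set F : Fin d → ℝ → ℝ≥0∞ := fun i x =>
    if i = i0 then ENNReal.ofReal (Real.exp (1 / 4 * x ^ 2))
    else ENNReal.ofReal (Real.exp (-s * x ^ 2)) with hF
  have hFm : ∀ i, Measurable (F i) := by
    intro i; simp only [hF]; split_ifs <;> fun_prop
  set S := (fun x : Fin d → ℝ => ∑ i, x i • b i) ⁻¹'
      {g | ‖g‖ ^ 2 - ⟪g, e⟫ ^ 2 ≤ 4 * ρ ^ 2 * ⟪g, e⟫ ^ 2} with hS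
  have hSm : MeasurableSet S :=
    measurableSet_le (by fun_prop) (by fun_prop) |>.preimage (by fun_prop)
  calc (Measure.pi fun _ : Fin d => gaussianReal 0 1) S
      = ∫⁻ x, S.indicator 1 x ∂Measure.pi fun _ : Fin d => gaussianReal 0 1 :=
        (lintegral_indicator_one hSm).symm
    _ ≤ ∫⁻ x, ∏ i, F i (x i) ∂Measure.pi fun _ : Fin d => gaussianReal 0 1 := by
        refine lintegral_mono fun x => ?_
        by_cases hx : x ∈ S
        · rw [Set.indicator_of_mem hx, Pi.one_apply]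
          have hx' : ‖∑ i, x i • b i‖ ^ 2 - ⟪∑ i, x i • b i, e⟫ ^ 2 ≤
              4 * ρ ^ 2 * ⟪∑ i, x i • b i, e⟫ ^ 2 := hx
          have hnorm : ‖∑ i, x i • b i‖ ^ 2 = ∑ i, x i ^ 2 := by
            rw [← real_inner_self_eq_norm_sq, b.orthonormal.inner_sum x x univ]
            simp [sq]
          have hin : ⟪∑ i, x i • b i, e⟫ = x i0 := by
            rw [← hb, b.orthonormal.inner_left_fintype]
            simp
          rw [hnorm, hin] at hx'
          have hprod : ∏ i, F i (x i) = ENNReal.ofReal (Real.exp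
              (1 / 4 * x i0 ^ 2 + ∑ i ∈ univ.erase i0, -s * x i ^ 2)) := by
            rw [← Finset.mul_prod_erase univ _ (mem_univ i0), Real.exp_add,
              ENNReal.ofReal_mul (Real.exp_pos _).le, Real.exp_sum,
              ENNReal.ofReal_prod_of_nonneg (fun i _ => (Real.exp_pos _).le)]
            congr 1
            · simp [hF]
            · exact Finset.prod_congr rfl fun i hi => by simp [hF, (Finset.mem_erase.1 hi).1]
          rw [hprod, ENNReal.one_le_ofReal]
          refine Real.one_le_exp ?_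
          rw [← Finset.mul_sum]
          have hsum : ∑ i, x i ^ 2 = x i0 ^ 2 + ∑ i ∈ univ.erase i0, x i ^ 2 :=
            (Finset.add_sum_erase univ (fun i => x i ^ 2) (mem_univ i0)).symm
          have h4 : ∑ i ∈ univ.erase i0, x i ^ 2 ≤ 4 * ρ ^ 2 * x i0 ^ 2 := by linarith
          have h5 : s * ∑ i ∈ univ.erase i0, x i ^ 2 ≤ 1 / 4 * x i0 ^ 2 := by
            calc s * ∑ i ∈ univ.erase i0, x i ^ 2 ≤ s * (4 * ρ ^ 2 * x i0 ^ 2) := by
                  gcongr
              _ = 1 / 4 * x i0 ^ 2 := by rw [hs]; field_simp; ring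
          linarith
        · rw [Set.indicator_of_notMem hx]; exact bot_le
    _ = ∏ i, ∫⁻ a, F i a ∂gaussianReal 0 1 := lintegral_pi_prod_self _ _ hFm
    _ ≤ ENNReal.ofReal 2 * ∏ _i ∈ univ.erase i0, ENNReal.ofReal (12 * r) := by
        rw [← Finset.mul_prod_erase univ _ (mem_univ i0)]
        gcongr with i hi
        · simp only [hF, if_pos rfl]
          exact lintegral_exp_sq_gaussian (by norm_num) (by norm_num)
        · simp only [hF, if_neg (Finset.mem_erase.1 hi).1]
          refine lintegral_exp_sq_gaussian (by linarith) ?_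
          rw [hs, hρ]
          field_simp
          nlinarith
    _ = ENNReal.ofReal (2 * (12 * r) ^ (d - 1)) := by
        rw [Finset.prod_const, Finset.card_erase_of_mem (mem_univ i0), Finset.card_univ,
          Fintype.card_fin, ← ENNReal.ofReal_pow (by linarith),
          ← ENNReal.ofReal_mul (by norm_num)]

end Vale.Agent.P309
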