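import Vale.Agent.P309.Cover

/-!
Nodes (sub-densities with respect to the uniform law on the sphere, supported in a dyadic ball),
their potential, and the one-step leak that makes every node Frostman.
-/

noncomputable section

open MeasureTheory ProbabilityTheory Finset
open scoped RealInnerProductSpace ENNReal NNReal

namespace Vale.Agent.P309

variable {d : ℕ}

/-- A sub-density supported in the ball of centre `c` and radius `2^(-l)`. -/
structure Node (f : Vec d → ℝ) (l : ℕ) (c : Vec d) : Prop where
  meas : Measurable f
  nonneg : ∀ s, 0 ≤ f s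
  le_one : ∀ s, f s ≤ 1
  supp : ∀ s, f s ≠ 0 → ‖s - c‖ ≤ 1 / 2 ^ l

def mass (f : Vec d → ℝ) : ℝ := ∫ s, f s ∂sphereUniform d

/-- Information of the sub-density `f`, weighted by its mass. -/
def ent (f : Vec d → ℝ) : ℝ :=
  ∫ s, f s * Real.log (f s) ∂sphereUniform d - mass f * Real.log (mass f)

/-- The potential: information minus a multiple of the depth. -/
def pot (D : ℕ) (f : Vec d → ℝ) (l : ℕ) : ℝ :=
  ent f - l * ((3 * D : ℕ) * Real.log 2) * mass f

/-- `f` is Frostman of dimension `D` below scale `2^(-l)`, with constant `K`. -/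
def NodeFrostman (D : ℕ) (f : Vec d → ℝ) (l : ℕ) (K : ℝ) : Prop :=
  ∀ (u : Vec d) (i : ℕ), ∫ s in Metric.closedBall u (1 / 2 ^ l / 2 ^ i), f s ∂sphereUniform d ≤
    mass f * (K / 2 ^ (i * D))

theorem bdd_integrable {h : Vec d → ℝ} (hm : Measurable h) {C : ℝ} (hC : ∀ s, |h s| ≤ C) :
    Integrable h (sphereUniform d) :=
  Integrable.of_bound hm.aestronglyMeasurable C
    (ae_of_all _ fun s => by simpa [Real.norm_eq_abs] using hC s)

theorem Node.integrable {f : Vec d → ℝ} {l : ℕ} {c : Vec d} (hf : Node f l c) :
    Integrable f (sphereUniform d) :=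
  bdd_integrable hf.meas (C := 1) fun s => by rw [abs_of_nonneg (hf.nonneg s)]; exact hf.le_one s

theorem Node.mass_nonneg {f : Vec d → ℝ} {l : ℕ} {c : Vec d} (hf : Node f l c) : 0 ≤ mass f :=
  integral_nonneg hf.nonneg

theorem abs_mul_log_le {x : ℝ} (h0 : 0 ≤ x) (h1 : x ≤ 1) : |x * Real.log x| ≤ 1 := by
  rcases eq_or_lt_of_le h0 with h | h
  · simp [← h]
  rw [abs_mul, abs_of_pos h, abs_of_nonpos (Real.log_nonpos h.le h1)]
  have := Real.one_sub_inv_le_log_of_pos h
  have h2 : x * x⁻¹ = 1 := mul_inv_cancel₀ h.ne'
  nlinarith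

theorem Node.integrable_mul_log {f : Vec d → ℝ} {l : ℕ} {c : Vec d} (hf : Node f l c) :
    Integrable (fun s => f s * Real.log (f s)) (sphereUniform d) :=
  bdd_integrable (hf.meas.mul (Real.measurable_log.comp hf.meas)) fun s =>
    abs_mul_log_le (hf.nonneg s) (hf.le_one s)

theorem real_cap_le (hd : 0 < d) (c : Vec d) {r : ℝ} (hr : 0 < r) :
    (sphereUniform d).real (Metric.closedBall c r) ≤ 2 * (12 * r) ^ (d - 1) :=
  ENNReal.toReal_le_of_le_ofReal (by positivity) (sphereUniform_closedBall_le hd c hr)

/-- The cell index: the whole node at `j = 0`, a grid cell at level `l + j` otherwise. -/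
def cellKey (l j : ℕ) (s : Vec d) : Fin d → ℤ := if j = 0 then 0 else key (l + j) s

theorem measurable_key (L : ℕ) : Measurable (key L : Vec d → Fin d → ℤ) := by
  unfold key
  refine measurable_pi_lambda _ fun i => Int.measurable_floor.comp (by fun_prop)

theorem measurable_cellKey (l j : ℕ) : Measurable (cellKey l j : Vec d → Fin d → ℤ) := by
  unfold cellKey
  split_ifs
  · exact measurable_const
  · exact measurable_key _

/-- Mass of `f` in a cell. -/
def cellMass (f : Vec d → ℝ) (l j : ℕ) (k : Fin d → ℤ) : ℝ :=
  ∫ x, {x | cellKey l j x = k}.indicator f x ∂sphereUniform d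

theorem measurableSet_cell (l j : ℕ) (k : Fin d → ℤ) :
    MeasurableSet {x : Vec d | cellKey l j x = k} :=
  measurable_cellKey l j (measurableSet_singleton k)

theorem cellMass_zero (f : Vec d → ℝ) (l : ℕ) : cellMass f l 0 0 = mass f := by
  simp [cellMass, cellKey, mass]

/-- The points at which `j` is the first maximiser of `2^(jD)` times the mass of the cell. -/
def record (f : Vec d → ℝ) (D l L j : ℕ) : Set (Vec d) :=
  {s | (∀ i ∈ range (L + 1), (2 : ℝ) ^ (i * D) * cellMass f l i (cellKey l i s) ≤
      2 ^ (j * D) * cellMass f l j (cellKey l j s)) ∧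
    ∀ i ∈ range j, (2 : ℝ) ^ (i * D) * cellMass f l i (cellKey l i s) <
      2 ^ (j * D) * cellMass f l j (cellKey l j s)}

theorem measurableSet_record (f : Vec d → ℝ) (D l L j : ℕ) :
    MeasurableSet (record f D l L j) := by
  have hm : ∀ i, Measurable fun s : Vec d =>
      (2 : ℝ) ^ (i * D) * cellMass f l i (cellKey l i s) := fun i =>
    ((measurable_of_countable fun k => (2 : ℝ) ^ (i * D) * cellMass f l i k)).comp
      (measurable_cellKey l i)
  refine (MeasurableSet.congr (s := (⋂ i ∈ range (L + 1), {s : Vec d |
      (2 : ℝ) ^ (i * D) * cellMass f l i (cellKey l i s) ≤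
      2 ^ (j * D) * cellMass f l j (cellKey l j s)}) ∩
      ⋂ i ∈ range j, {s : Vec d | (2 : ℝ) ^ (i * D) * cellMass f l i (cellKey l i s) <
      2 ^ (j * D) * cellMass f l j (cellKey l j s)}) ?_ ?_)
  · exact (Finset.measurableSet_biInter _ fun i _ => measurableSet_le (hm i) (hm j)).inter
      (Finset.measurableSet_biInter _ fun i _ => measurableSet_lt (hm i) (hm j))
  · ext s; simp [record]

theorem exists_record (f : Vec d → ℝ) (D l L : ℕ) (s : Vec d) :
    ∃ j ∈ range (L + 1), s ∈ record f D l L j := by
  classical
  set g : ℕ → ℝ := fun i => (2 : ℝ) ^ (i * D) * cellMass f l i (cellKey l i s) with hg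
  have hex : ∃ j, j ∈ range (L + 1) ∧ ∀ i ∈ range (L + 1), g i ≤ g j := by
    obtain ⟨j, hj, hmax⟩ := (range (L + 1)).exists_max_image g ⟨0, by simp⟩
    exact ⟨j, hj, hmax⟩
  have hj := Nat.find_spec hex
  refine ⟨Nat.find hex, hj.1, hj.2, fun i hi => ?_⟩
  have hij : i < Nat.find hex := Finset.mem_range.1 hi
  have hjL : Nat.find hex < L + 1 := Finset.mem_range.1 hj.1
  refine lt_of_le_of_ne (hj.2 i (Finset.mem_range.2 (by omega))) fun heq => ?_
  exact Nat.find_min hex hij ⟨Finset.mem_range.2 (by omega),
    fun i' hi' => le_of_le_of_eq (hj.2 i' hi') heq.symm⟩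

theorem record_unique (f : Vec d → ℝ) (D l L : ℕ) (s : Vec d) {j j' : ℕ} (hj : j ≤ L)
    (hj' : j' ≤ L) (h : s ∈ record f D l L j) (h' : s ∈ record f D l L j') : j = j' := by
  rcases lt_trichotomy j j' with hlt | heq | hgt
  · exact absurd (h.1 j' (Finset.mem_range.2 (by omega))) (not_le.2 (h'.2 j (Finset.mem_range.2 hlt)))
  · exact heq
  · exact absurd (h'.1 j (Finset.mem_range.2 (by omega))) (not_le.2 (h.2 j' (Finset.mem_range.2 hgt)))

/-- The output of the leak. -/
structure Leak (D : ℕ) (f : Vec d → ℝ) (l : ℕ) (P : Type) [Fintype P] where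
  part : P → Vec d → ℝ
  depth : P → ℕ
  centre : P → Vec d
  konst : P → ℝ
  node : ∀ p, Node (part p) (depth p) (centre p)
  sum_part : ∀ s, ∑ p, part p s = f s
  konst_ge : ∀ p, 1 ≤ konst p
  frostman : ∀ p, NodeFrostman D (part p) (depth p) (konst p)
  pot_le : ∑ p, (pot D (part p) (depth p) + mass (part p) * Real.log (konst p)) ≤
    pot D f l + mass f * (4 + 5 * d * Real.log 2)

theorem exists_leak {f : Vec d → ℝ} {l : ℕ} {c : Vec d} (hf : Node f l c) {D : ℕ} (hD2 : 2 ≤ D)
    (hD : D + 1 ≤ d - 1) :
    ∃ (P : Type) (inst : Fintype P), Nonempty (@Leak d D f l P inst) := by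
  classical
  have hd : 0 < d := by omega
  have hlog2 : 0 < Real.log 2 := Real.log_pos one_lt_two
  rcases eq_or_lt_of_le hf.mass_nonneg with hm0 | hm
  · refine ⟨Unit, inferInstance, ⟨{
      part := fun _ => f, depth := fun _ => l, centre := fun _ => c, konst := fun _ => 1,
      node := fun _ => hf, sum_part := fun s => by simp, konst_ge := fun _ => le_rfl,
      frostman := ?_, pot_le := ?_ }⟩⟩
    · intro _ u i
      rw [← hm0, zero_mul]
      exact (setIntegral_le_integral hf.integrable (ae_of_all _ hf.nonneg)).trans_eq hm0.symm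
    · simp [← hm0]
  set m := mass f with hmdef
  obtain ⟨L, hL⟩ := pow_unbounded_of_one_lt (2 * (12 : ℝ) ^ (d - 1) / m) (one_lt_two (α := ℝ))
  choose S hScard hS using fun j : ℕ => exists_keys_cover (l + j) c (ρ := (2 : ℝ) ^ j) (by positivity)
  set Box : Finset (Fin d → ℤ) := insert 0 ((range (L + 1)).biUnion S) with hBox
  have hbox : ∀ j ∈ range (L + 1), ∀ s, f s ≠ 0 → cellKey l j s ∈ Box := by
    intro j hj s hs
    unfold cellKey
    split_ifs with h0
    · exact Finset.mem_insert_self _ _
    · refine Finset.mem_insert_of_mem (Finset.mem_biUnion.2 ⟨j, hj, hS j s ?_⟩)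
      refine le_trans (hf.supp s hs) (le_of_eq ?_)
      rw [pow_add]; field_simp
  set P := range (L + 1) ×ˢ Box with hP
  set A : ℕ × (Fin d → ℤ) → Set (Vec d) :=
    fun p => record f D l L p.1 ∩ {x | cellKey l p.1 x = p.2} with hA
  have hAm : ∀ p, MeasurableSet (A p) := fun p =>
    (measurableSet_record f D l L p.1).inter (measurableSet_cell l p.1 p.2)
  set fp : ℕ × (Fin d → ℤ) → Vec d → ℝ := fun p => (A p).indicator f with hfp
  have hfp0 : ∀ p s, 0 ≤ fp p s := fun p => Set.indicator_nonneg fun s _ => hf.nonneg s
  have hfple : ∀ p s, fp p s ≤ f s := fun p s =>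
    Set.indicator_apply_le' (fun _ => le_rfl) (fun _ => hf.nonneg s)
  have hfpne : ∀ p s, fp p s ≠ 0 → s ∈ A p ∧ f s ≠ 0 := fun p s h => by
    have h1 := Set.mem_of_indicator_ne_zero h
    exact ⟨h1, by simp only [hfp, Set.indicator_of_mem h1] at h; exact h⟩
  set cp : ℕ × (Fin d → ℤ) → Vec d := fun p => if p.1 = 0 then c else corner (l + p.1) p.2
  have hnode : ∀ p, Node (fp p) (l + p.1) (cp p) := by
    intro p
    refine ⟨hf.meas.indicator (hAm p), hfp0 p, fun s => le_trans (hfple p s) (hf.le_one s),
      fun s hs => ?_⟩
    obtain ⟨⟨-, hk⟩, hfs⟩ := hfpne p s hs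
    simp only [cp]
    split_ifs with h0
    · rw [h0, add_zero]; exact hf.supp s hfs
    · have hk' : key (l + p.1) s = p.2 := by
        have hk2 : cellKey l p.1 s = p.2 := hk
        simpa [cellKey, h0] using hk2
      rw [← hk']
      exact norm_sub_corner_le _ _
  have hsum : ∀ s, ∑ p : {p // p ∈ P}, fp p.1 s = f s := by
    intro s
    rw [Finset.sum_coe_sort P (fun p => fp p s)]
    by_cases hs : f s = 0
    · rw [hs]
      exact Finset.sum_eq_zero fun p _ => le_antisymm (hs ▸ hfple p s) (hfp0 p s)
    obtain ⟨j, hj, hrec⟩ := exists_record f D l L s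
    rw [Finset.sum_eq_single (j, cellKey l j s)]
    · simp only [hfp]; rw [Set.indicator_of_mem]; exact ⟨hrec, rfl⟩
    · intro p hp hne
      by_contra h
      obtain ⟨⟨hr, hk⟩, -⟩ := hfpne p s h
      have e := record_unique f D l L s (Nat.lt_succ_iff.1 (Finset.mem_range.1
        (Finset.mem_product.1 hp).1)) (Nat.lt_succ_iff.1 (Finset.mem_range.1 hj)) hr hrec
      exact hne (Prod.ext e (by rw [← hk, e]))
    · intro h
      exact absurd (Finset.mem_product.2 ⟨hj, hbox j hj s hs⟩) h
  set M : ℕ × (Fin d → ℤ) → ℝ := fun p => cellMass f l p.1 p.2 with hM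
  have hicell : ∀ j k, Integrable ({x | cellKey l j x = k}.indicator f) (sphereUniform d) :=
    fun j k => hf.integrable.indicator (measurableSet_cell l j k)
  have hMge : ∀ p, mass (fp p) ≤ M p := fun p =>
    integral_mono (hnode p).integrable (hicell _ _) fun s =>
      Set.indicator_le_indicator_of_subset Set.inter_subset_right hf.nonneg s
  set K : ℕ × (Fin d → ℤ) → ℝ := fun p =>
    if mass (fp p) = 0 then 1 else 2 ^ (5 * d) * (M p / mass (fp p)) with hK
  have hK1 : ∀ p, 1 ≤ K p := by
    intro p
    simp only [hK]
    split_ifs with h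
    · exact le_rfl
    · refine one_le_mul_of_one_le_of_one_le (one_le_pow₀ (by norm_num)) ?_
      rw [le_div_iff₀ (lt_of_le_of_ne (hnode p).mass_nonneg (Ne.symm h)), one_mul]
      exact hMge p
  have hrec0 : ∀ j s, s ∈ record f D l L j →
      m ≤ 2 ^ (j * D) * cellMass f l j (cellKey l j s) := by
    intro j s hs
    have := hs.1 0 (by simp)
    simpa [cellKey, cellMass_zero] using this
  have hfro : ∀ p, NodeFrostman D (fp p) (l + p.1) (K p) := by
    intro p u i
    have hmp := (hnode p).mass_nonneg
    have hle := setIntegral_le_integral (s := Metric.closedBall u (1 / 2 ^ (l + p.1) / 2 ^ i))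
      (hnode p).integrable (ae_of_all _ (hfp0 p))
    rcases eq_or_lt_of_le hmp with h0 | hpos
    · rw [← h0, zero_mul]; exact hle.trans_eq h0.symm
    rcases Nat.eq_zero_or_pos i with hi | hi
    · subst hi
      simp only [pow_zero, zero_mul, div_one] at hle ⊢
      exact hle.trans (le_mul_of_one_le_right hmp (hK1 p))
    have hKval : mass (fp p) * (K p / 2 ^ (i * D)) = 2 ^ (5 * d) * (M p / 2 ^ (i * D)) := by
      simp only [hK, if_neg hpos.ne']
      field_simp
    rw [hKval]
    obtain ⟨T, hTcard, hT⟩ := exists_keys_cover (l + p.1 + i) u (ρ := 1) zero_le_one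
    have hcell : ∀ k, ∫ s, {x | key (l + p.1 + i) x = k}.indicator (fp p) s ∂sphereUniform d ≤
        M p / 2 ^ (i * D) := by
      intro k
      have hjk : {x : Vec d | key (l + p.1 + i) x = k} = {x | cellKey l (p.1 + i) x = k} := by
        ext x; simp [cellKey, add_assoc, Nat.ne_of_gt hi]
      have hMnn : 0 ≤ M p / 2 ^ (i * D) :=
        div_nonneg (le_trans hmp (hMge p)) (by positivity)
      by_cases hex : ∃ s, {x | key (l + p.1 + i) x = k}.indicator (fp p) s ≠ 0
      · obtain ⟨s, hs⟩ := hex
        have hsk : key (l + p.1 + i) s = k :=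
          Set.mem_of_indicator_ne_zero (s := {x | key (l + p.1 + i) x = k}) hs
        rw [Set.indicator_of_mem (show s ∈ {x | key (l + p.1 + i) x = k} from hsk)] at hs
        obtain ⟨⟨hr, hkey⟩, -⟩ := hfpne p s hs
        have hkey' : cellKey l p.1 s = p.2 := hkey
        have hsk' : cellKey l (p.1 + i) s = k := by
          have : s ∈ {x | cellKey l (p.1 + i) x = k} := hjk ▸ hsk
          exact this
        rw [hjk]
        refine le_trans (integral_mono ((hnode p).integrable.indicator (measurableSet_cell _ _ _))
          (hicell _ _) fun x => Set.indicator_le_indicator (hfple p x)) ?_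
        change cellMass f l (p.1 + i) k ≤ _
        by_cases hjL : p.1 + i ≤ L
        · have := hr.1 (p.1 + i) (Finset.mem_range.2 (by omega))
          rw [hkey', hsk', add_mul, pow_add] at this
          rw [le_div_iff₀ (by positivity)]
          simp only [hM]
          have h2 : (0 : ℝ) < 2 ^ (p.1 * D) := by positivity
          nlinarith
        · push_neg at hjL
          have hrec := hrec0 p.1 s hr
          rw [hkey'] at hrec
          refine le_trans (b := m / 2 ^ ((p.1 + i) * D)) ?_ ?_
          · calc cellMass f l (p.1 + i) k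
                ≤ ∫ x, (Metric.closedBall (corner (l + (p.1 + i)) k)
                    (1 / 2 ^ (l + (p.1 + i)))).indicator 1 x ∂sphereUniform d := by
                  refine integral_mono (hicell _ _)
                    ((integrable_const 1).indicator measurableSet_closedBall) fun x => ?_
                  refine Set.indicator_apply_le' (fun hx => ?_)
                    (fun _ => Set.indicator_nonneg (fun _ _ => zero_le_one) x)
                  have hx' : key (l + (p.1 + i)) x = k := by
                    have hx2 : cellKey l (p.1 + i) x = k := hx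
                    simpa [cellKey, Nat.ne_of_gt hi] using hx2
                  rw [Set.indicator_of_mem, Pi.one_apply]
                  · exact hf.le_one x
                  · rw [Metric.mem_closedBall, dist_eq_norm, ← hx']
                    exact norm_sub_corner_le _ _
              _ = (sphereUniform d).real (Metric.closedBall (corner (l + (p.1 + i)) k)
                    (1 / 2 ^ (l + (p.1 + i)))) := integral_indicator_one measurableSet_closedBall
              _ ≤ 2 * (12 * (1 / 2 ^ (l + (p.1 + i)))) ^ (d - 1) :=
                  real_cap_le hd _ (by positivity)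
              _ ≤ 2 * 12 ^ (d - 1) * (1 / 2 ^ ((p.1 + i) * (D + 1))) := by
                  rw [mul_pow, ← mul_assoc, div_pow, one_pow, ← pow_mul]
                  refine mul_le_mul_of_nonneg_left ?_ (by positivity)
                  refine one_div_le_one_div_of_le (by positivity) ?_
                  exact pow_le_pow_right₀ one_le_two (Nat.mul_le_mul (by omega) hD)
              _ ≤ m * 2 ^ L * (1 / 2 ^ ((p.1 + i) * (D + 1))) := by
                  refine mul_le_mul_of_nonneg_right ?_ (by positivity)
                  rw [div_lt_iff₀ hm] at hL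
                  linarith
              _ ≤ m / 2 ^ ((p.1 + i) * D) := by
                  rw [Nat.mul_add, mul_one, pow_add]
                  rw [mul_one_div, div_le_div_iff₀ (by positivity) (by positivity)]
                  have : (2 : ℝ) ^ L ≤ 2 ^ (p.1 + i) := pow_le_pow_right₀ one_le_two hjL.le
                  have h2 : 0 ≤ m * (2 : ℝ) ^ ((p.1 + i) * D) := by positivity
                  nlinarith [mul_le_mul_of_nonneg_left this h2]
          · rw [add_mul, pow_add, div_le_div_iff₀ (by positivity) (by positivity)]
            simp only [hM]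
            nlinarith [mul_le_mul_of_nonneg_right hrec (show (0 : ℝ) ≤ 2 ^ (i * D) by positivity)]
      · push_neg at hex
        simpa [hex] using hMnn
    calc ∫ s in Metric.closedBall u (1 / 2 ^ (l + p.1) / 2 ^ i), fp p s ∂sphereUniform d
        = ∫ s, (Metric.closedBall u (1 / 2 ^ (l + p.1) / 2 ^ i)).indicator (fp p) s
            ∂sphereUniform d := (integral_indicator measurableSet_closedBall).symm
      _ ≤ ∫ s, ∑ k ∈ T, {x | key (l + p.1 + i) x = k}.indicator (fp p) s ∂sphereUniform d := by
          refine integral_mono ((hnode p).integrable.indicator measurableSet_closedBall)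
            (integrable_finsetSum _ fun k _ =>
              (hnode p).integrable.indicator (measurable_key _ (measurableSet_singleton k)))
            fun s => ?_
          refine Set.indicator_apply_le' (fun hs => ?_)
            (fun _ => Finset.sum_nonneg fun k _ => Set.indicator_nonneg (fun x _ => hfp0 p x) s)
          have hmem : key (l + p.1 + i) s ∈ T := by
            refine hT s ?_
            rw [Metric.mem_closedBall, dist_eq_norm] at hs
            refine hs.trans_eq ?_
            rw [pow_add _ (l + p.1) i]; field_simp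
          refine le_trans (le_of_eq ?_) (Finset.single_le_sum
            (f := fun k => {x | key (l + p.1 + i) x = k}.indicator (fp p) s)
            (fun k _ => Set.indicator_nonneg (fun x _ => hfp0 p x) s) hmem)
          exact (Set.indicator_of_mem
            (show s ∈ {x | key (l + p.1 + i) x = key (l + p.1 + i) s} from rfl) (fp p)).symm
      _ = ∑ k ∈ T, ∫ s, {x | key (l + p.1 + i) x = k}.indicator (fp p) s ∂sphereUniform d :=
          integral_finsetSum _ fun k _ =>
            (hnode p).integrable.indicator (measurable_key _ (measurableSet_singleton k))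
      _ ≤ T.card * (M p / 2 ^ (i * D)) := by
          refine (Finset.sum_le_card_nsmul _ _ _ fun k _ => hcell k).trans_eq ?_
          rw [nsmul_eq_mul]
      _ ≤ _ := by
          gcongr
          · exact div_nonneg (le_trans hmp (hMge p)) (by positivity)
          refine hTcard.trans ?_
          rw [pow_mul]
          gcongr
          calc Real.exp 1 * (2 * (1 + 3)) ≤ 3 * (2 * (1 + 3)) := by
                gcongr; exact Real.exp_one_lt_three.le
            _ ≤ 2 ^ 5 := by norm_num
  refine ⟨{p // p ∈ P}, inferInstance, ⟨{
    part := fun p => fp p.1, depth := fun p => l + p.1.1, centre := fun p => cp p.1,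
    konst := fun p => K p.1, node := fun p => hnode p.1, sum_part := hsum,
    konst_ge := fun p => hK1 p.1, frostman := fun p => hfro p.1, pot_le := ?_ }⟩⟩
  rw [Finset.sum_coe_sort P (fun p => pot D (fp p) (l + p.1) + mass (fp p) * Real.log (K p))]
  set lam : ℝ := (3 * D : ℕ) * Real.log 2 with hlam
  have hmsum : ∑ p ∈ P, mass (fp p) = m := by
    simp only [hmdef, mass]
    rw [← integral_finsetSum _ fun p _ => (hnode p).integrable]
    refine integral_congr_ae (ae_of_all _ fun s => ?_)
    dsimp only
    rw [← Finset.sum_coe_sort P (fun p => fp p s)]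
    exact hsum s
  have hlsum : ∑ p ∈ P, ∫ s, fp p s * Real.log (fp p s) ∂sphereUniform d =
      ∫ s, f s * Real.log (f s) ∂sphereUniform d := by
    rw [← integral_finsetSum _ fun p _ => (hnode p).integrable_mul_log]
    refine integral_congr_ae (ae_of_all _ fun s => ?_)
    dsimp only
    rw [← hsum s, Finset.sum_coe_sort P (fun p => fp p s), Finset.sum_mul]
    refine Finset.sum_congr rfl fun p _ => ?_
    rw [← Finset.sum_coe_sort P (fun p => fp p s), hsum s]
    by_cases h : fp p s = 0
    · simp [h]
    · obtain ⟨hA', -⟩ := hfpne p s h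
      rw [hfp]; dsimp only
      rw [Set.indicator_of_mem hA']
  set wgt : ℕ × (Fin d → ℤ) → ℝ := fun p =>
    if 0 < mass (fp p) then Real.exp (-(p.1 * lam) / 2) else 0 with hwgt
  have hterm : ∀ p ∈ P, pot D (fp p) (l + p.1) + mass (fp p) * Real.log (K p) ≤
      ∫ s, fp p s * Real.log (fp p s) ∂sphereUniform d +
        mass (fp p) * (5 * d * Real.log 2 - Real.log m - l * lam) +
        (2 * (m * wgt p) - 2 * mass (fp p)) := by
    intro p hp
    have hpj : p.1 ≤ L := Nat.lt_succ_iff.1 (Finset.mem_range.1 (Finset.mem_product.1 hp).1)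
    simp only [pot, ent, ← hlam]
    rcases eq_or_lt_of_le (hnode p).mass_nonneg with h0 | hpos
    · simp [hwgt, ← h0]
    have hMp : 0 < M p := lt_of_lt_of_le hpos (hMge p)
    have hMm : M p ≤ m := integral_mono (hicell _ _) hf.integrable fun s =>
      Set.indicator_apply_le' (fun _ => le_rfl) (fun _ => hf.nonneg s)
    have hKl : Real.log (K p) =
        5 * d * Real.log 2 + (Real.log (M p) - Real.log (mass (fp p))) := by
      simp only [hK, if_neg hpos.ne']
      rw [Real.log_mul (by positivity) (by positivity), Real.log_pow,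
        Real.log_div hMp.ne' hpos.ne']
      push_cast; ring
    have hw : wgt p = Real.exp (-(p.1 * lam) / 2) := by simp [hwgt, hpos]
    have hkey := Real.log_le_sub_one_of_pos
      (show 0 < m * Real.exp (-(p.1 * lam) / 2) / mass (fp p) by positivity)
    rw [Real.log_div (by positivity) hpos.ne', Real.log_mul hm.ne' (Real.exp_pos _).ne',
      Real.log_exp] at hkey
    have hkey2 := mul_le_mul_of_nonneg_left hkey hpos.le
    have e : mass (fp p) * (m * Real.exp (-(p.1 * lam) / 2) / mass (fp p) - 1) =
        m * Real.exp (-(p.1 * lam) / 2) - mass (fp p) := by field_simp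
    rw [e] at hkey2
    have hlogM : mass (fp p) * Real.log (M p) ≤ mass (fp p) * Real.log m :=
      mul_le_mul_of_nonneg_left (Real.log_le_log hMp hMm) hpos.le
    rw [hKl, hw]
    push_cast
    nlinarith
  refine le_trans (Finset.sum_le_sum hterm) ?_
  rw [Finset.sum_add_distrib, Finset.sum_add_distrib, Finset.sum_sub_distrib, hlsum,
    ← Finset.sum_mul, ← Finset.mul_sum, ← Finset.mul_sum, ← Finset.mul_sum, hmsum]
  have hw : ∑ p ∈ P, wgt p ≤ 2 := by
    rw [hP, Finset.sum_product]
    calc ∑ j ∈ range (L + 1), ∑ k ∈ Box, wgt (j, k) ≤ ∑ j ∈ range (L + 1), ((1 : ℝ) / 2) ^ j := by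
          refine Finset.sum_le_sum fun j hj => ?_
          simp only [hwgt]
          rw [← Finset.sum_filter, Finset.sum_const, nsmul_eq_mul]
          set Pos := Box.filter fun k => 0 < mass (fp (j, k))
          have hbig : ∀ k ∈ Pos, m / 2 ^ (j * D) ≤ cellMass f l j k := by
            intro k hk
            have hkpos : 0 < mass (fp (j, k)) := (Finset.mem_filter.1 hk).2
            obtain ⟨s, hs⟩ : ∃ s, fp (j, k) s ≠ 0 := by
              by_contra hno
              push_neg at hno
              simp [mass, hno] at hkpos
            obtain ⟨⟨hr, hkey⟩, -⟩ := hfpne (j, k) s hs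
            have h := hrec0 j s hr
            have hkey' : cellKey l j s = k := hkey
            rw [hkey'] at h
            rw [div_le_iff₀ (by positivity), mul_comm]
            exact h
          have hcard : (Pos.card : ℝ) * (m / 2 ^ (j * D)) ≤ m := by
            calc (Pos.card : ℝ) * (m / 2 ^ (j * D)) ≤ ∑ k ∈ Pos, cellMass f l j k := by
                  rw [← nsmul_eq_mul]
                  exact Finset.card_nsmul_le_sum _ _ _ hbig
              _ = ∫ s, ∑ k ∈ Pos, {x | cellKey l j x = k}.indicator f s ∂sphereUniform d :=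
                  (integral_finsetSum _ fun k _ => hicell j k).symm
              _ ≤ m := by
                  refine integral_mono (integrable_finsetSum _ fun k _ => hicell j k)
                    hf.integrable fun s => ?_
                  simp only [Set.indicator_apply, Set.mem_setOf_eq]
                  rw [Finset.sum_ite_eq]
                  split_ifs
                  · exact le_rfl
                  · exact hf.nonneg s
          have hcard2 : (Pos.card : ℝ) ≤ 2 ^ (j * D) := by
            rw [mul_div_assoc'] at hcard
            rw [div_le_iff₀ (by positivity)] at hcard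
            nlinarith
          calc (Pos.card : ℝ) * Real.exp (-(j * lam) / 2)
              ≤ Real.exp ((j * D : ℕ) * Real.log 2) * Real.exp (-(j * lam) / 2) := by
                gcongr
                rw [Real.exp_nat_mul, Real.exp_log two_pos]
                exact hcard2
            _ ≤ Real.exp ((j : ℕ) * (-Real.log 2)) := by
                rw [← Real.exp_add, Real.exp_le_exp, hlam]
                push_cast
                have : (2 : ℝ) ≤ D := by exact_mod_cast hD2
                nlinarith [mul_nonneg (mul_nonneg (Nat.cast_nonneg (α := ℝ) j) hlog2.le)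
                  (sub_nonneg.2 this)]
            _ = (1 / 2) ^ j := by
                rw [Real.exp_nat_mul, Real.exp_neg, Real.exp_log two_pos, one_div]
      _ ≤ 2 := sum_geometric_two_le _
  simp only [pot, ent, ← hlam, ← hmdef]
  nlinarith [mul_le_mul_of_nonneg_left hw hm.le]

end Vale.Agent.P309
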