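import Vale.Agent.P309.Unroll
import Vale.Agent.P309.Leak

/-!
Backward induction over phases: success is bounded by the potential.
-/

noncomputable section

open MeasureTheory ProbabilityTheory Finset
open scoped RealInnerProductSpace ENNReal NNReal

namespace Vale.Agent.P309

variable {d N : ℕ}

theorem sphereUniform_zero (hd : 2 ≤ d) : sphereUniform d {0} = 0 := by
  refine le_antisymm ?_ bot_le
  have hlim : Filter.Tendsto (fun n : ℕ => ENNReal.ofReal (2 * (12 * (1 / ((n : ℝ) + 1))) ^ (d - 1)))
      Filter.atTop (nhds (ENNReal.ofReal (2 * (12 * (0 : ℝ)) ^ (d - 1)))) :=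
    ENNReal.tendsto_ofReal
      (((tendsto_one_div_add_atTop_nhds_zero_nat.const_mul 12).pow (d - 1)).const_mul 2)
  rw [mul_zero, zero_pow (by omega), mul_zero, ENNReal.ofReal_zero] at hlim
  refine ge_of_tendsto' hlim fun n => ?_
  exact (measure_mono (Set.singleton_subset_iff.2 (Metric.mem_closedBall_self (by positivity)))).trans
    (sphereUniform_closedBall_le (by omega) 0 (by positivity))

theorem ae_unit (hd : 2 ≤ d) : ∀ᵐ s ∂sphereUniform d, ‖s‖ = 1 := by
  have h1 : ∀ᵐ s ∂sphereUniform d, ‖s‖ = 1 ∨ s = 0 := by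
    unfold sphereUniform
    refine (ae_map_iff (by fun_prop) ((measurableSet_eq_fun measurable_norm measurable_const).union
      (measurableSet_singleton (0 : Vec d)))).2 (ae_of_all _ fun g => ?_)
    rcases eq_or_ne g 0 with h | h
    · exact Or.inr (by simp [h])
    · exact Or.inl (norm_smul_inv_norm h)
  have h2 : ∀ᵐ s ∂sphereUniform d, s ≠ 0 := by
    rw [ae_iff]
    simpa using sphereUniform_zero hd
  filter_upwards [h1, h2] with s hs hs'
  exact hs.resolve_right hs'

theorem dist_le_of_arccos_le {v s : Vec d} (hv : ‖v‖ = 1) (hs : ‖s‖ = 1) {ε : ℝ}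
    (h : Real.arccos ⟪v, s⟫ ≤ ε) : dist v s ≤ ε := by
  have hip : |⟪v, s⟫| ≤ 1 := by
    simpa [hv, hs] using abs_real_inner_le_norm v s
  have hc : 1 - Real.arccos ⟪v, s⟫ ^ 2 / 2 ≤ ⟪v, s⟫ := by
    have := Real.one_sub_sq_div_two_le_cos (x := Real.arccos ⟪v, s⟫)
    rwa [Real.cos_arccos (abs_le.1 hip).1 (abs_le.1 hip).2] at this
  have h0 := Real.arccos_nonneg ⟪v, s⟫
  have hd2 : dist v s ^ 2 ≤ Real.arccos ⟪v, s⟫ ^ 2 := by
    rw [dist_eq_norm, norm_sub_sq_real, hv, hs]
    linarith
  exact ((pow_le_pow_iff_left₀ dist_nonneg h0 two_ne_zero).1 hd2).trans h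

/-- The offset in the potential bound. -/
def baseOffset (d : ℕ) : ℝ := (d - 1 : ℕ) * Real.log 24 + 1

/-- The threshold in the potential bound. -/
def theta (d : ℕ) (Lam τ : ℝ) : ℝ := Real.log Lam / 5 - (baseOffset d - Real.log τ)

theorem ball_average_le (hd : 0 < d) {ε : ℝ} (hε : 0 < ε) (μ : Measure (Vec d))
    [IsProbabilityMeasure μ] :
    ∫ s, μ.real (Metric.closedBall s ε) ∂sphereUniform d ≤ 2 * (12 * ε) ^ (d - 1) := by
  set S := {p : Vec d × Vec d | dist p.2 p.1 ≤ ε}
  have hS : MeasurableSet S := measurableSet_le (by fun_prop) measurable_const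
  have h1 : ∀ s, μ.real (Metric.closedBall s ε) =
      ∫ w, S.indicator (fun _ => (1 : ℝ)) (s, w) ∂μ := by
    intro s
    rw [← integral_indicator_one measurableSet_closedBall]
    refine integral_congr_ae (ae_of_all _ fun w => ?_)
    dsimp only
    by_cases h : dist w s ≤ ε
    · rw [Set.indicator_of_mem (Metric.mem_closedBall.2 h),
        Set.indicator_of_mem (show (s, w) ∈ S from h), Pi.one_apply]
    · rw [Set.indicator_of_notMem (fun hc => h (Metric.mem_closedBall.1 hc)),
        Set.indicator_of_notMem (show (s, w) ∉ S from h)]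
  have h2 : ∀ w, ∫ s, S.indicator (fun _ => (1 : ℝ)) (s, w) ∂sphereUniform d =
      (sphereUniform d).real (Metric.closedBall w ε) := by
    intro w
    rw [← integral_indicator_one measurableSet_closedBall]
    refine integral_congr_ae (ae_of_all _ fun s => ?_)
    dsimp only
    by_cases h : dist w s ≤ ε
    · rw [Set.indicator_of_mem (Metric.mem_closedBall.2 (dist_comm w s ▸ h)),
        Set.indicator_of_mem (show (s, w) ∈ S from h), Pi.one_apply]
    · rw [Set.indicator_of_notMem
          (fun hc => h (dist_comm s w ▸ Metric.mem_closedBall.1 hc)),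
        Set.indicator_of_notMem (show (s, w) ∉ S from h)]
  simp_rw [h1]
  rw [integral_integral_swap (f := fun s w => S.indicator (fun _ => (1 : ℝ)) (s, w))
    (((integrable_const (1 : ℝ)).indicator hS) :
      Integrable (S.indicator fun _ => (1 : ℝ)) ((sphereUniform d).prod μ))]
  simp_rw [h2]
  exact (integral_mono_of_nonneg (ae_of_all _ fun _ => measureReal_nonneg) (integrable_const _)
    (ae_of_all _ fun w => real_cap_le hd w hε)).trans_eq (by simp)

/-- The pointwise inequality of the base case, at a point of the ball. -/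
theorem base_pointwise {y hit q m v A e lam l lv Lam τ θ : ℝ} (hy : 0 < y) (hm : 0 < m) (hv : 0 < v)
    (hl : 0 ≤ l) (hlv : Real.log v = A - e * lv) (hlam : l * lam ≤ 4 / 5 * e * lv)
    (helv : 0 ≤ e * lv) (hhit : hit ≤ q) (hhit1 : hit ≤ 1) (hhit0 : 0 ≤ hit) (hA : 0 ≤ A)
    (hLam : 1 ≤ Lam) (hτ : 0 < τ) (hτ1 : τ ≤ 1) (hθ : 0 < θ)
    (hθle : θ ≤ Real.log Lam / 5 + Real.log τ) :
    y * hit ≤ m * Lam * q + m * τ / v +
      θ⁻¹ * ((y * Real.log y - y * Real.log m) - l * lam * y + A * y + m / v) := by
  set x := y / m with hx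
  have hxpos : 0 < x := div_pos hy hm
  have hyx : y = m * x := by rw [hx]; field_simp
  have hlogx : Real.log x = Real.log y - Real.log m := by
    rw [hx, Real.log_div hy.ne' hm.ne']
  set h := Real.log x - l * lam + A with hh
  have hinner_eq : (y * Real.log y - y * Real.log m) - l * lam * y + A * y + m / v =
      (x * v * h + 1) * (m / v) := by
    rw [hh, hlogx, hyx]; field_simp
  have hmv : 0 ≤ m / v := by positivity
  have hxv : 0 < x * v := by positivity
  have hinner : 0 ≤ x * v * h + 1 := by
    have h1 : -1 ≤ x * v * Real.log (x * v) := by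
      have := Real.one_sub_inv_le_log_of_pos hxv
      have h2 : x * v * (x * v)⁻¹ = 1 := mul_inv_cancel₀ hxv.ne'
      nlinarith
    rw [Real.log_mul hxpos.ne' hv.ne', hlv] at h1
    have h2 : Real.log x + (A - e * lv) ≤ h := by rw [hh]; linarith
    nlinarith [mul_le_mul_of_nonneg_left h2 hxv.le]
  have hrest : 0 ≤ θ⁻¹ * ((x * v * h + 1) * (m / v)) := by positivity
  have hq0 : 0 ≤ q := le_trans hhit0 hhit
  rw [hinner_eq]
  by_cases hc1 : x ≤ Lam
  · have : y * hit ≤ m * Lam * q := by
      rw [hyx]
      exact mul_le_mul (mul_le_mul_of_nonneg_left hc1 hm.le) hhit hhit0 (by positivity)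
    have : 0 ≤ m * τ / v := by positivity
    linarith
  by_cases hc2 : x * v ≤ τ
  · have : y * hit ≤ m * τ / v := by
      refine (mul_le_of_le_one_right hy.le hhit1).trans ?_
      rw [hyx, mul_div_assoc]
      gcongr
      rw [le_div_iff₀ hv]
      exact hc2
    have : 0 ≤ m * Lam * q := by positivity
    linarith
  push_neg at hc1 hc2
  have hlx : Real.log Lam ≤ Real.log x := Real.log_le_log (by linarith) hc1.le
  have hlxv : Real.log τ ≤ Real.log x + Real.log v := by
    rw [← Real.log_mul hxpos.ne' hv.ne']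
    exact Real.log_le_log hτ hc2.le
  have hlt : Real.log τ ≤ 0 := Real.log_nonpos hτ.le hτ1
  have hθh : θ ≤ h := by
    rw [hh]
    rw [hlv] at hlxv
    linarith
  have h5 : y * θ ≤ (x * v * h + 1) * (m / v) := by
    have e1 : (x * v * h + 1) * (m / v) = y * h + m / v := by rw [hyx]; field_simp
    rw [e1]
    nlinarith [mul_le_mul_of_nonneg_left hθh hy.le]
  have : y * hit ≤ θ⁻¹ * ((x * v * h + 1) * (m / v)) := by
    refine (mul_le_of_le_one_right hy.le hhit1).trans ?_
    rw [inv_mul_eq_div, le_div_iff₀ hθ]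
    exact h5
  have : 0 ≤ m * τ / v := by positivity
  have : 0 ≤ m * Lam * q := by positivity
  linarith

theorem theta_le (hd : 256 ≤ d) {Lam τ : ℝ} :
    theta d Lam τ ≤ Real.log Lam / 5 + Real.log τ := by
  have : 0 ≤ ((d - 1 : ℕ) : ℝ) * Real.log 24 :=
    mul_nonneg (Nat.cast_nonneg _) (Real.log_nonneg (by norm_num))
  rw [theta, baseOffset]
  linarith

theorem base_bound (hd : 256 ≤ d) {ε : ℝ} (hε : 0 < ε) {Lam τ : ℝ} (hLam : 1 ≤ Lam) (hτ : 0 < τ)
    (hτ1 : τ ≤ 1) (hθ : 0 < theta d Lam τ) {f : Vec d → ℝ} {l : ℕ} {c : Vec d} (hf : Node f l c)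
    (μ : Measure (Vec d)) [IsProbabilityMeasure μ] (hμ : ∀ᵐ v ∂μ, ‖v‖ = 1) :
    ∫ s, f s * μ.real {v | Real.arccos ⟪v, s⟫ ≤ ε} ∂sphereUniform d ≤
      (theta d Lam τ)⁻¹ * (pot (d / 4) f l + baseOffset d * mass f) +
        (Lam * (2 * (12 * ε) ^ (d - 1)) + τ) * mass f := by
  have ha0 : 0 ≤ (theta d Lam τ)⁻¹ := inv_nonneg.2 hθ.le
  rcases eq_or_lt_of_le hf.mass_nonneg with hm0 | hmpos
  · have hz : f =ᵐ[sphereUniform d] 0 :=
      (integral_eq_zero_iff_of_nonneg hf.nonneg hf.integrable).1 hm0.symm
    have h2 : ∫ s, f s * Real.log (f s) ∂sphereUniform d = 0 :=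
      integral_eq_zero_of_ae (hz.mono fun s hs => by simp [hs])
    rw [integral_eq_zero_of_ae (hz.mono fun s hs => by simp [hs])]
    simp [pot, ent, h2, ← hm0]
  set m := mass f with hm
  set lam : ℝ := (3 * (d / 4) : ℕ) * Real.log 2 with hlam
  set e : ℝ := ((d - 1 : ℕ) : ℝ) with he
  set A : ℝ := e * Real.log 24 with hA
  set v : ℝ := (24 / 2 ^ l) ^ (d - 1) with hv
  have hvpos : 0 < v := by positivity
  set q : Vec d → ℝ := fun s => μ.real (Metric.closedBall s ε) with hq
  have hqm : Measurable q := by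
    have hset : MeasurableSet {p : Vec d × Vec d | dist p.2 p.1 ≤ ε} :=
      measurableSet_le (by fun_prop) measurable_const
    exact (measurable_measure_prodMk_left (ν := μ) hset).ennreal_toReal
  have hqi : Integrable q (sphereUniform d) := bdd_integrable hqm (C := 1) fun s => by
    rw [abs_of_nonneg measureReal_nonneg]; exact measureReal_le_one
  set bi : Vec d → ℝ := (Metric.closedBall c (1 / 2 ^ l)).indicator 1 with hbi
  have hball : Integrable bi (sphereUniform d) :=
    (integrable_const 1).indicator measurableSet_closedBall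
  have hbint : ∫ s, bi s ∂sphereUniform d ≤ v := by
    rw [hbi, integral_indicator_one measurableSet_closedBall]
    refine (real_cap_le (by omega) c (by positivity)).trans ?_
    rw [hv, mul_one_div, div_pow, div_pow, ← mul_div_assoc]
    refine div_le_div_of_nonneg_right ?_ (by positivity)
    rw [show (24 : ℝ) = 2 * 12 by norm_num, mul_pow]
    exact mul_le_mul_of_nonneg_right (le_self_pow₀ one_le_two (by omega)) (by positivity)
  have hlogv : Real.log v = A - e * (l * Real.log 2) := by
    rw [hv, Real.log_pow, Real.log_div (by norm_num) (by positivity), Real.log_pow, hA]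
    ring
  have hl0 : (0 : ℝ) ≤ l * Real.log 2 :=
    mul_nonneg (Nat.cast_nonneg l) (Real.log_nonneg one_le_two)
  have hlamle : (l : ℝ) * lam ≤ 4 / 5 * e * (l * Real.log 2) := by
    have h2 : ((5 * (3 * (d / 4)) : ℕ) : ℝ) ≤ ((4 * (d - 1) : ℕ) : ℝ) := by
      exact_mod_cast (show 5 * (3 * (d / 4)) ≤ 4 * (d - 1) by omega)
    have h3 : ((3 * (d / 4) : ℕ) : ℝ) ≤ 4 / 5 * e := by
      push_cast at h2 ⊢
      rw [he]; linarith
    have := mul_le_mul_of_nonneg_right h3 hl0
    rw [hlam]
    nlinarith
  have hA0 : 0 ≤ A := mul_nonneg (Nat.cast_nonneg _) (Real.log_nonneg (by norm_num))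
  set inner : Vec d → ℝ := fun s =>
    (f s * Real.log (f s) - f s * Real.log m) - l * lam * f s + A * f s + m / v * bi s with hinner
  have hpt : ∀ᵐ s ∂sphereUniform d, f s * μ.real {w | Real.arccos ⟪w, s⟫ ≤ ε} ≤
      m * Lam * q s + m * τ / v * bi s + (theta d Lam τ)⁻¹ * inner s := by
    filter_upwards [ae_unit (show 2 ≤ d by omega)] with s hs
    have hhit : μ.real {w | Real.arccos ⟪w, s⟫ ≤ ε} ≤ q s := by
      refine ENNReal.toReal_mono (measure_ne_top _ _) (measure_mono_ae ?_)
      filter_upwards [hμ] with w hw hmem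
      exact dist_le_of_arccos_le hw hs hmem
    rcases eq_or_lt_of_le (hf.nonneg s) with hfz | hfpos
    · simp only [hinner, ← hfz, zero_mul, mul_zero, sub_zero, add_zero, zero_add]
      have : 0 ≤ bi s := Set.indicator_nonneg (fun _ _ => zero_le_one) s
      have : 0 ≤ q s := measureReal_nonneg
      positivity
    have hsb : bi s = 1 := by
      rw [hbi, Set.indicator_of_mem (by simpa [dist_eq_norm] using hf.supp s hfpos.ne'), Pi.one_apply]
    simp only [hinner, hsb, mul_one]
    exact base_pointwise hfpos hmpos hvpos (Nat.cast_nonneg l) hlogv hlamle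
      (mul_nonneg (Nat.cast_nonneg _) hl0) hhit measureReal_le_one measureReal_nonneg hA0 hLam hτ
      hτ1 hθ (theta_le hd)
  have i1 : Integrable (fun s => f s * Real.log (f s) - f s * Real.log m) (sphereUniform d) :=
    hf.integrable_mul_log.sub' (hf.integrable.mul_const _)
  have i2 : Integrable (fun s => f s * Real.log (f s) - f s * Real.log m - l * lam * f s)
      (sphereUniform d) := i1.sub' (hf.integrable.const_mul _)
  have i3 : Integrable (fun s => f s * Real.log (f s) - f s * Real.log m - l * lam * f s + A * f s)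
      (sphereUniform d) := i2.add (hf.integrable.const_mul _)
  have i4 : Integrable inner (sphereUniform d) := i3.add (hball.const_mul _)
  have i5 : Integrable (fun s => m * Lam * q s + m * τ / v * bi s) (sphereUniform d) :=
    (hqi.const_mul _).add (hball.const_mul _)
  have e4 : ∫ s, inner s ∂sphereUniform d =
      pot (d / 4) f l + A * m + m / v * ∫ s, bi s ∂sphereUniform d := by
    simp only [hinner]
    rw [integral_add i3 (hball.const_mul _), integral_add i2 (hf.integrable.const_mul _),
      integral_sub i1 (hf.integrable.const_mul _),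
      integral_sub hf.integrable_mul_log (hf.integrable.mul_const _), integral_mul_const,
      integral_const_mul, integral_const_mul, integral_const_mul]
    rfl
  refine le_trans (integral_mono_of_nonneg
    (ae_of_all _ fun s => mul_nonneg (hf.nonneg s) measureReal_nonneg)
    (i5.add (i4.const_mul _)) hpt) ?_
  simp only [Pi.add_apply]
  rw [integral_add i5 (i4.const_mul _), integral_add (hqi.const_mul _) (hball.const_mul _),
    integral_const_mul, integral_const_mul, integral_const_mul, e4]
  have h6 : m / v * ∫ s, bi s ∂sphereUniform d ≤ m := by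
    rw [div_mul_eq_mul_div, div_le_iff₀ hvpos]
    exact mul_le_mul_of_nonneg_left hbint hmpos.le
  have h7 : m * τ / v * ∫ s, bi s ∂sphereUniform d ≤ m * τ := by
    rw [div_mul_eq_mul_div, div_le_iff₀ hvpos]
    exact mul_le_mul_of_nonneg_left hbint (by positivity)
  have h8 : m * Lam * ∫ s, q s ∂sphereUniform d ≤ m * Lam * (2 * (12 * ε) ^ (d - 1)) :=
    mul_le_mul_of_nonneg_left (ball_average_le (by omega) hε μ) (by positivity)
  rw [baseOffset, ← he, ← hA]
  nlinarith [mul_le_mul_of_nonneg_left h6 ha0]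

/-- Gain of the potential in one phase. -/
def gain (d Kc : ℕ) : ℝ :=
  4 + 5 * d * Real.log 2 + phaseConst d (d / 32) (d / 8) (d / 4) +
    (2 / ((d / 8 : ℕ) + 1) + Real.exp (-(d : ℝ)) * 2 ^ (d / 32)) * Real.log Kc

/-- Splitting a Frostman node along the outcomes of a phase. -/
theorem pot_phase_le (hd : 256 ≤ d) {O : Type*} [Fintype O] {f : Vec d → ℝ} {l : ℕ} {c : Vec d}
    (hf : Node f l c) {K : ℝ} (hK : 1 ≤ K) (hfro : NodeFrostman (d / 4) f l K)
    (F : O → (Fin (d / 32) → Vec d) × (Fin (d / 32) → ℝ) → ℝ) (hF : ∀ o, Measurable (F o))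
    (h0 : ∀ o z, 0 ≤ F o z) (hsum : ∀ z, ∑ o, F o z = 1) {R : Finset O} {Kc : ℕ}
    (hR : R.card ≤ Kc) (hout : ∀ o, o ∉ R → ∀ z, F o z = 0) :
    ∑ o, pot (d / 4) (fun s => f s * accept (F o) s) l ≤
      pot (d / 4) f l + mass f * Real.log K +
        mass f * (gain d Kc - 4 - 5 * d * Real.log 2) := by
  set σ := sphereUniform d
  set g : O → Vec d → ℝ := fun o => accept (F o) with hg
  have hF1 : ∀ o z, F o z ≤ 1 := fun o z =>
    (Finset.single_le_sum (fun o' _ => h0 o' z) (Finset.mem_univ o)).trans_eq (hsum z)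
  have hg0 : ∀ o s, 0 ≤ g o s := fun o => accept_nonneg (h0 o)
  have hg1 : ∀ o s, g o s ≤ 1 := fun o => accept_le_one (hF o) (h0 o) (hF1 o)
  have hgm : ∀ o, Measurable (g o) := fun o => measurable_accept (hF o)
  have hgsum : ∀ s, ∑ o, g o s = 1 := by
    intro s
    simp only [hg, accept]
    rw [← integral_finsetSum _ fun o _ => integrable_test (hF o) (h0 o) (hF1 o) s]
    simp_rw [hsum]
    simp
  rcases eq_or_lt_of_le hf.mass_nonneg with hm0 | hm
  · have hz : f =ᵐ[σ] 0 := (integral_eq_zero_iff_of_nonneg hf.nonneg hf.integrable).1 hm0.symm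
    have hpot : ∀ (g : Vec d → ℝ), pot (d / 4) (fun s => f s * g s) l = 0 := by
      intro g
      have h1 : mass (fun s => f s * g s) = 0 :=
        integral_eq_zero_of_ae (hz.mono fun s hs => by simp [hs])
      have h2 : ∫ s, f s * g s * Real.log (f s * g s) ∂σ = 0 :=
        integral_eq_zero_of_ae (hz.mono fun s hs => by simp [hs])
      simp [pot, ent, h1, h2, σ]
    have hpot1 : pot (d / 4) f l = 0 := by simpa using hpot fun _ => 1
    simp [hpot, hpot1, ← hm0]
  set m := mass f with hmdef
  set w : Vec d → ℝ≥0∞ := fun s => ENNReal.ofReal (f s / m) with hw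
  have hwm : Measurable w := by have := hf.meas; fun_prop
  set ν := σ.withDensity w
  have hint : ∀ h : Vec d → ℝ, ∫ s, h s ∂ν = (∫ s, f s * h s ∂σ) / m := by
    intro h
    rw [integral_withDensity_eq_integral_toReal_smul hwm (ae_of_all _ fun _ => ENNReal.ofReal_lt_top),
      ← integral_div]
    refine integral_congr_ae (ae_of_all _ fun s => ?_)
    simp only [hw, ENNReal.toReal_ofReal (div_nonneg (hf.nonneg s) hm.le), smul_eq_mul]
    ring
  have hmeas : ∀ A, MeasurableSet A → ν A = ENNReal.ofReal ((∫ s in A, f s ∂σ) / m) := by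
    intro A hA
    rw [withDensity_apply _ hA, ← integral_div, ← ofReal_integral_eq_lintegral_ofReal
      (hf.integrable.div_const m).integrableOn (ae_of_all _ fun s => div_nonneg (hf.nonneg s) hm.le)]
  haveI : IsProbabilityMeasure ν := by
    refine ⟨?_⟩
    rw [hmeas _ MeasurableSet.univ, setIntegral_univ]
    show ENNReal.ofReal (m / m) = 1
    rw [div_self hm.ne', ENNReal.ofReal_one]
  have hsupp : ∀ᵐ s ∂ν, ‖s - c‖ ≤ 1 / 2 ^ l := by
    rw [ae_withDensity_iff hwm]
    refine ae_of_all _ fun s hs => hf.supp s fun h => hs ?_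
    simp [hw, h]
  have hball : ∀ (u : Vec d) (i : ℕ),
      ν (Metric.closedBall u (1 / 2 ^ l / 2 ^ i)) ≤ ENNReal.ofReal (K / 2 ^ (i * (d / 4))) := by
    intro u i
    rw [hmeas _ measurableSet_closedBall]
    refine ENNReal.ofReal_le_ofReal ?_
    rw [div_le_iff₀ hm, mul_comm]
    exact hfro u i
  have hinfo := phase_info (ν := ν) (m := d / 8) (by omega) (by omega) c (by positivity) hK hsupp
    hball F hF h0 hsum hR hout
  set π : O → ℝ := fun o => ∫ s, g o s ∂ν with hπ
  set I : O → ℝ := fun o => ∫ s, g o s * Real.log (g o s) ∂ν with hI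
  have ifg : ∀ o, Integrable (fun s => f s * g o s) σ := fun o =>
    bdd_integrable (hf.meas.mul (hgm o)) (C := 1) fun s => by
      rw [abs_of_nonneg (mul_nonneg (hf.nonneg s) (hg0 o s))]
      exact mul_le_one₀ (hf.le_one s) (hg0 o s) (hg1 o s)
  have igf : ∀ o, Integrable (fun s => g o s * (f s * Real.log (f s))) σ := fun o =>
    bdd_integrable ((hgm o).mul (hf.meas.mul (Real.measurable_log.comp hf.meas))) (C := 1) fun s => by
      rw [abs_mul, abs_of_nonneg (hg0 o s)]
      exact mul_le_one₀ (hg1 o s) (abs_nonneg _) (abs_mul_log_le (hf.nonneg s) (hf.le_one s))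
  have ifgl : ∀ o, Integrable (fun s => f s * (g o s * Real.log (g o s))) σ := fun o =>
    bdd_integrable (hf.meas.mul ((hgm o).mul (Real.measurable_log.comp (hgm o)))) (C := 1) fun s => by
      rw [abs_mul, abs_of_nonneg (hf.nonneg s)]
      exact mul_le_one₀ (hf.le_one s) (abs_nonneg _) (abs_mul_log_le (hg0 o s) (hg1 o s))
  have hmass : ∀ o, mass (fun s => f s * g o s) = m * π o := by
    intro o
    simp only [hπ, mass, hint]
    field_simp
    rfl
  have hπsum : ∑ o, π o = 1 := by
    have : ∀ o, π o = (∫ s, f s * g o s ∂σ) / m := fun o => hint _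
    simp_rw [this]
    rw [← Finset.sum_div, ← integral_finsetSum _ fun o _ => ifg o]
    simp_rw [← Finset.mul_sum, hgsum, mul_one]
    exact div_self hm.ne'
  have hmullog : ∀ x y : ℝ, (x * y) * Real.log (x * y) =
      y * (x * Real.log x) + x * (y * Real.log y) := by
    intro x y
    have := Real.negMulLog_mul x y
    simp only [Real.negMulLog] at this
    linarith
  have hone : ∀ o, pot (d / 4) (fun s => f s * g o s) l =
      ∫ s, g o s * (f s * Real.log (f s)) ∂σ + m * (I o - π o * Real.log (π o)) -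
        π o * (m * Real.log m + l * ((3 * (d / 4) : ℕ) * Real.log 2) * m) := by
    intro o
    have h1 : ∫ s, f s * g o s * Real.log (f s * g o s) ∂σ =
        ∫ s, g o s * (f s * Real.log (f s)) ∂σ + m * I o := by
      simp_rw [hmullog]
      rw [integral_add (igf o) (ifgl o)]
      simp only [hI, hint]
      field_simp
    rw [pot, ent, hmass o, h1, hmullog]
    ring
  simp_rw [hg] at hone
  rw [Finset.sum_congr rfl fun o _ => hone o, Finset.sum_sub_distrib, Finset.sum_add_distrib,
    ← Finset.mul_sum, ← Finset.sum_mul]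
  have hflog : ∑ o, ∫ s, accept (F o) s * (f s * Real.log (f s)) ∂σ =
      ∫ s, f s * Real.log (f s) ∂σ := by
    rw [← integral_finsetSum _ fun o _ => igf o]
    refine integral_congr_ae (ae_of_all _ fun s => ?_)
    dsimp only
    rw [← Finset.sum_mul]
    have := hgsum s
    simp only [hg] at this
    rw [this, one_mul]
  rw [hflog, hπsum]
  have := mul_le_mul_of_nonneg_left hinfo hm.le
  simp only [hI, hπ, hg] at *
  rw [pot, ent, gain, ← hmdef]
  linarith

/-- Success is bounded by the potential. -/
theorem success_le (hd : 256 ≤ d) (L : Learner d N) (T : ℕ) {ε : ℝ} (hε : 0 < ε) {Lam τ : ℝ}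
    (hLam : 1 ≤ Lam) (hτ : 0 < τ) (hτ1 : τ ≤ 1) (hθ : 0 < theta d Lam τ) :
    ∀ n t (a : PadState N T) (f : Vec d → ℝ) (l : ℕ) (c : Vec d), Node f l c →
      ∫ s, f s * padSuccess L T ε (n * (d / 32)) t a s ∂sphereUniform d ≤
        (theta d Lam τ)⁻¹ * (pot (d / 4) f l +
          (n * gain d ((d / 32 + 1) * N) + baseOffset d) * mass f) +
        (Lam * (2 * (12 * ε) ^ (d - 1)) + τ) * mass f := by
  set k := d / 32 with hk
  set D := d / 4 with hD
  set a0 := (theta d Lam τ)⁻¹ with ha0
  set b := Lam * (2 * (12 * ε) ^ (d - 1)) + τ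
  have ha : 0 ≤ a0 := by rw [ha0, inv_nonneg]; exact hθ.le
  intro n
  induction n with
  | zero =>
    intro t a f l c hf
    simp only [zero_mul, padSuccess, Nat.cast_zero, zero_add]
    rcases a with w | p
    · haveI := L.out_prob T w
      exact base_bound hd hε hLam hτ hτ1 hθ hf (L.out T w) (L.out_sphere T w)
    · haveI := L.out_prob (p.1 : ℕ) p.2
      exact base_bound hd hε hLam hτ hτ1 hθ hf (L.out p.1 p.2) (L.out_sphere p.1 p.2)
  | succ n ih =>
    intro t a f l c hf
    obtain ⟨P, instP, ⟨lk⟩⟩ := exists_leak (D := D) hf (by omega) (by omega)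
    set g : PadState N T → Vec d → ℝ := fun o => accept (blockTest L T k t a o) with hg
    set R : PadState N T → Vec d → ℝ := fun o => padSuccess L T ε (n * k) (t + k) o with hR
    have hsucc : ∀ s, padSuccess L T ε ((n + 1) * k) t a s = ∑ o, g o s * R o s := by
      intro s
      rw [show (n + 1) * k = k + n * k by ring, padSuccess_add]
    have hg0 : ∀ o s, 0 ≤ g o s := fun o => accept_nonneg (blockTest_nonneg L T k t a o)
    have hg1 : ∀ o s, g o s ≤ 1 := fun o => accept_le_one (blockTest_measurable L T k t a o)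
      (blockTest_nonneg L T k t a o) (blockTest_le_one L T k t a o)
    have hgm : ∀ o, Measurable (g o) := fun o => measurable_accept (blockTest_measurable L T k t a o)
    have hchild : ∀ p o, Node (fun s => lk.part p s * g o s) (lk.depth p) (lk.centre p) :=
      fun p o => ⟨(lk.node p).meas.mul (hgm o),
        fun s => mul_nonneg ((lk.node p).nonneg s) (hg0 o s),
        fun s => mul_le_one₀ ((lk.node p).le_one s) (hg0 o s) (hg1 o s),
        fun s hs => (lk.node p).supp s (left_ne_zero_of_mul hs)⟩
    have hint : ∀ p o, Integrable (fun s => lk.part p s * g o s * R o s) (sphereUniform d) :=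
      fun p o => bdd_integrable
        (((lk.node p).meas.mul (hgm o)).mul (padSuccess_props L T ε _ _ o).1) (C := 1) fun s => by
        obtain ⟨h1, h2⟩ := (padSuccess_props L T ε (n * k) (t + k) o).2 s
        rw [abs_of_nonneg (mul_nonneg ((hchild p o).nonneg s) h1)]
        exact mul_le_one₀ ((hchild p o).le_one s) h1 h2
    have hexp : ∀ s, f s * padSuccess L T ε ((n + 1) * k) t a s =
        ∑ p, ∑ o, lk.part p s * g o s * R o s := by
      intro s
      rw [hsucc, ← lk.sum_part s, Finset.sum_mul]
      simp_rw [Finset.mul_sum, mul_assoc]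
    simp_rw [hexp]
    rw [integral_finsetSum _ fun p _ => integrable_finsetSum _ fun o _ => hint p o]
    simp_rw [fun p => integral_finsetSum (univ : Finset (PadState N T)) fun o _ => hint p o]
    refine le_trans (Finset.sum_le_sum fun p _ => Finset.sum_le_sum fun o _ =>
      ih (t + k) o _ _ _ (hchild p o)) ?_
    obtain ⟨Rs, hRcard, hRout⟩ := blockTest_support L T k t a
    have hpot : ∀ p, ∑ o, pot D (fun s => lk.part p s * g o s) (lk.depth p) ≤
        pot D (lk.part p) (lk.depth p) + mass (lk.part p) * Real.log (lk.konst p) +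
          mass (lk.part p) * (gain d ((k + 1) * N) - 4 - 5 * d * Real.log 2) :=
      fun p => pot_phase_le hd (lk.node p) (lk.konst_ge p) (lk.frostman p)
        (blockTest L T k t a) (blockTest_measurable L T k t a)
        (blockTest_nonneg L T k t a) (blockTest_sum L T k t a) hRcard hRout
    have hmass : ∑ p, mass (lk.part p) = mass f := by
      simp only [mass]
      rw [← integral_finsetSum _ fun p _ => (lk.node p).integrable]
      simp_rw [lk.sum_part]
    have hmass2 : ∀ p, ∑ o, mass (fun s => lk.part p s * g o s) = mass (lk.part p) := by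
      intro p
      simp only [mass]
      rw [← integral_finsetSum _ fun o _ => (hchild p o).integrable]
      simp_rw [← Finset.mul_sum, hg, accept_sum_blockTest, mul_one]
    simp_rw [Finset.sum_add_distrib, ← Finset.mul_sum]
    simp_rw [Finset.sum_add_distrib, ← Finset.mul_sum, hmass2, hmass]
    refine add_le_add (mul_le_mul_of_nonneg_left ?_ ha) le_rfl
    have hsum := le_trans (Finset.sum_le_sum fun p (_ : p ∈ univ) => hpot p) (le_of_eq
      (Finset.sum_add_distrib (f := fun p =>
        pot D (lk.part p) (lk.depth p) + mass (lk.part p) * Real.log (lk.konst p))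
        (g := fun p => mass (lk.part p) * (gain d ((k + 1) * N) - 4 - 5 * d * Real.log 2))))
    rw [← Finset.sum_mul, hmass] at hsum
    have := lk.pot_le
    push_cast
    linarith

end Vale.Agent.P309
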