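import Vale.Agent.P309.Cover

/-!
The key inequality: if a probability law on the unit ball is Frostman of dimension `D`, then a
test that reads random Gaussian projections of the point cannot be much more likely under it
than under a flat reference.
-/

noncomputable section

open MeasureTheory ProbabilityTheory Finset Filter
open scoped RealInnerProductSpace ENNReal NNReal Topology

namespace Vale.Agent.P309

variable {d : ℕ}

/-- `ν` is a probability law on the unit ball with `ν(B(u,2^{-i})) ≤ Kf 2^{-iD}`. -/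
structure BallFrostman (ν : Measure (Vec d)) (Kf : ℝ) (D : ℕ) : Prop where
  one_le : 1 ≤ Kf
  supp : ∀ᵐ u ∂ν, ‖u‖ ≤ 1
  bound : ∀ (u : Vec d) (i : ℕ),
    ν (Metric.closedBall u (1 / 2 ^ i)) ≤ ENNReal.ofReal (Kf / 2 ^ (i * D))

/-- The constant in the tube integral. -/
def tubeConst (Kf : ℝ) (D m n : ℕ) : ℝ≥0∞ := ENNReal.ofReal (Kf * 2 ^ (n + D + 5 * m + 2))

theorem one_le_tubeConst {Kf : ℝ} (h : 1 ≤ Kf) (D m n : ℕ) : 1 ≤ tubeConst Kf D m n := by
  rw [tubeConst, ENNReal.one_le_ofReal]
  exact one_le_mul_of_one_le_of_one_le h (one_le_pow₀ (by norm_num))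

theorem measure_tube_le {ν : Measure (Vec d)} [IsProbabilityMeasure ν] {Kf : ℝ} {D m : ℕ}
    (hν : BallFrostman ν Kf D) (hmD : m ≤ D) (S : Submodule ℝ (Vec d))
    (hS : Module.finrank ℝ S ≤ m) (u0 : Vec d) (i : ℕ) :
    ν {u | ‖(u - u0) - S.starProjection (u - u0)‖ ≤ 1 / 2 ^ i} ≤
      ENNReal.ofReal (Kf * 2 ^ (D + 5 * m) / 2 ^ (i * (D - m))) := by
  obtain ⟨C, hC, hcov⟩ := exists_tube_cover S hS u0 i
  have hball : ∀ c : Vec d, ν (Metric.closedBall c (2 / 2 ^ i)) ≤
      ENNReal.ofReal (Kf * 2 ^ D / 2 ^ (i * D)) := by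
    intro c
    rcases Nat.eq_zero_or_pos i with hi | hi
    · subst hi
      refine le_trans prob_le_one (ENNReal.one_le_ofReal.2 ?_)
      simp only [zero_mul, pow_zero, div_one]
      exact one_le_mul_of_one_le_of_one_le hν.one_le (one_le_pow₀ (by norm_num))
    · obtain ⟨j, rfl⟩ : ∃ j, i = j + 1 := ⟨i - 1, by omega⟩
      have e : (2 : ℝ) / 2 ^ (j + 1) = 1 / 2 ^ j := by rw [pow_succ]; field_simp
      rw [e]
      refine le_trans (hν.bound c j) (le_of_eq ?_)
      congr 1
      rw [add_mul, one_mul, pow_add]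
      field_simp
  calc ν {u | ‖(u - u0) - S.starProjection (u - u0)‖ ≤ 1 / 2 ^ i}
      ≤ ν (⋃ c ∈ C, Metric.closedBall c (2 / 2 ^ i)) := by
        refine measure_mono_ae ?_
        filter_upwards [hν.supp] with u hu hmem
        obtain ⟨c, hc, hcu⟩ := hcov u hu hmem
        exact Set.mem_biUnion hc (by simpa [dist_eq_norm] using hcu)
    _ ≤ ∑ c ∈ C, ν (Metric.closedBall c (2 / 2 ^ i)) := measure_biUnion_finset_le _ _
    _ ≤ ∑ _c ∈ C, ENNReal.ofReal (Kf * 2 ^ D / 2 ^ (i * D)) :=
        Finset.sum_le_sum fun c _ => hball c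
    _ = ENNReal.ofReal ((C.card : ℝ) * (Kf * 2 ^ D / 2 ^ (i * D))) := by
        rw [Finset.sum_const, nsmul_eq_mul, ENNReal.ofReal_mul (by positivity),
          ENNReal.ofReal_natCast]
    _ ≤ _ := by
        refine ENNReal.ofReal_le_ofReal ?_
        have hK : 0 ≤ Kf := le_trans zero_le_one hν.one_le
        have h32 : (C.card : ℝ) ≤ (32 * 2 ^ i) ^ m := by
          refine le_trans hC (pow_le_pow_left₀ (by positivity) ?_ m)
          have h3 := Real.exp_one_lt_three
          have h1 : (1 : ℝ) ≤ 2 ^ i := one_le_pow₀ (by norm_num)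
          calc Real.exp 1 * (2 * ((2 : ℝ) ^ i + 3)) ≤ 3 * (2 * (4 * 2 ^ i)) := by
                gcongr
                linarith
            _ ≤ 32 * 2 ^ i := by linarith
        calc (C.card : ℝ) * (Kf * 2 ^ D / 2 ^ (i * D))
            ≤ (32 * 2 ^ i) ^ m * (Kf * 2 ^ D / 2 ^ (i * D)) := by gcongr
          _ = Kf * 2 ^ (D + 5 * m) / 2 ^ (i * (D - m)) := by
              have e : i * D = i * (D - m) + i * m := by
                rw [← Nat.mul_add, Nat.sub_add_cancel hmD]
              rw [e, pow_add, pow_add, mul_pow, ← pow_mul (2 : ℝ) i m, pow_mul (2 : ℝ) 5 m]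
              norm_num
              field_simp

theorem tube_integral_le {ν : Measure (Vec d)} [IsProbabilityMeasure ν] {Kf : ℝ} {D m n : ℕ}
    (hν : BallFrostman ν Kf D) (hD : m + n + 1 ≤ D) (S : Submodule ℝ (Vec d))
    (hS : Module.finrank ℝ S ≤ m) (u0 : Vec d) :
    ∫⁻ u, (ENNReal.ofReal ‖(u - u0) - S.starProjection (u - u0)‖)⁻¹ ^ n ∂ν ≤
      tubeConst Kf D m n := by
  have hK : 0 ≤ Kf := le_trans zero_le_one hν.one_le
  set f : Vec d → ℝ := fun u => ‖(u - u0) - S.starProjection (u - u0)‖ with hf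
  have hfm : Measurable f := by fun_prop
  set A := Kf * 2 ^ (n + D + 5 * m) with hA
  calc ∫⁻ u, (ENNReal.ofReal (f u))⁻¹ ^ n ∂ν
      ≤ ∫⁻ u, 1 + ∑' i : ℕ, Set.indicator {v | f v ≤ 1 / 2 ^ i}
          (fun _ => (2 : ℝ≥0∞) ^ ((i + 1) * n)) u ∂ν := by
        refine lintegral_mono fun u => ?_
        refine le_trans (inv_pow_le_layers (norm_nonneg _) n) (le_of_eq ?_)
        simp [Set.indicator_apply, hf]
    _ = 1 + ∑' i : ℕ, (2 : ℝ≥0∞) ^ ((i + 1) * n) * ν {v | f v ≤ 1 / 2 ^ i} := by
        rw [lintegral_add_left measurable_const, lintegral_one, measure_univ,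
          lintegral_tsum fun i => (measurable_const.indicator
            (measurableSet_le hfm measurable_const)).aemeasurable]
        congr 1
        refine tsum_congr fun i => ?_
        rw [lintegral_indicator_const (measurableSet_le hfm measurable_const)]
    _ ≤ 1 + ∑' i : ℕ, ENNReal.ofReal (A * (1 / 2) ^ i) := by
        refine add_le_add le_rfl (ENNReal.tsum_le_tsum fun i => ?_)
        refine le_trans (mul_le_mul_right (measure_tube_le hν (by omega) S hS u0 i) _) ?_
        rw [show (2 : ℝ≥0∞) = ENNReal.ofReal 2 by norm_num, ← ENNReal.ofReal_pow (by norm_num),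
          ← ENNReal.ofReal_mul (by positivity)]
        refine ENNReal.ofReal_le_ofReal ?_
        calc (2 : ℝ) ^ ((i + 1) * n) * (Kf * 2 ^ (D + 5 * m) / 2 ^ (i * (D - m)))
            = A * (2 ^ (i * n) / 2 ^ (i * (D - m))) := by
              rw [hA, add_mul, one_mul, pow_add, show n + D + 5 * m = n + (D + 5 * m) by ring,
                pow_add _ n]
              field_simp
          _ ≤ A * (1 / 2) ^ i := by
              gcongr
              rw [div_pow, one_pow, div_le_div_iff₀ (by positivity) (by positivity), one_mul,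
                ← pow_add]
              refine pow_le_pow_right₀ (by norm_num) ?_
              calc i * n + i = i * (n + 1) := by ring
                _ ≤ i * (D - m) := Nat.mul_le_mul_left i (by omega)
    _ = 1 + ENNReal.ofReal (A * 2) := by
        rw [← ENNReal.ofReal_tsum_of_nonneg (fun i => by positivity)
          ((summable_geometric_of_lt_one (by norm_num) (by norm_num)).mul_left _), tsum_mul_left,
          tsum_geometric_two]
    _ ≤ tubeConst Kf D m n := by
        rw [tubeConst, ← ENNReal.ofReal_one, ← ENNReal.ofReal_add (by norm_num) (by positivity)]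
        refine ENNReal.ofReal_le_ofReal ?_
        have h1 : 1 ≤ A :=
          one_le_mul_of_one_le_of_one_le hν.one_le (one_le_pow₀ (by norm_num))
        rw [pow_add _ _ 2, ← mul_assoc, ← hA]
        linarith

@[fun_prop]
theorem measurable_perp_snoc {j : ℕ} (w : Fin j → Vec d) (u0 : Vec d) :
    Measurable fun x : Vec d => ‖(x - u0) -
      (Submodule.span ℝ (Set.range fun l => w l - u0)).starProjection (x - u0)‖ := by
  fun_prop

/-- Iterated tube integrals over tuples of independent points. -/
theorem perp_tuple_integral_le {ν : Measure (Vec d)} [IsProbabilityMeasure ν] {Kf : ℝ} {D m n : ℕ}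
    (hν : BallFrostman ν Kf D) (hD : m + n + 1 ≤ D) (u0 : Vec d) :
    ∀ j, j ≤ m →
      ∫⁻ w, ∏ i : Fin j, (ENNReal.ofReal (perp (fun l => w l - u0) i))⁻¹ ^ n
        ∂Measure.pi (fun _ => ν) ≤ tubeConst Kf D m n ^ j := by
  intro j
  induction j with
  | zero => intro _; simp
  | succ j ih =>
    intro hj
    have h := (measurePreserving_piFinSuccAbove (fun _ : Fin (j + 1) => ν) (Fin.last j)).symm
    rw [← h.lintegral_comp_emb (MeasurableEquiv.measurableEmbedding _), ← Measure.prod_swap]
    rw [show (Prod.swap : (Fin j → Vec d) × Vec d → Vec d × (Fin j → Vec d)) =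
      ⇑(MeasurableEquiv.prodComm (α := Fin j → Vec d) (β := Vec d)) from rfl, lintegral_map_equiv]
    refine le_trans (lintegral_prod_le _) ?_
    have hsplit : ∀ (x : Vec d) (w : Fin j → Vec d),
        ∏ i : Fin (j + 1), (ENNReal.ofReal (perp (fun l =>
          (MeasurableEquiv.piFinSuccAbove (fun _ => Vec d) (Fin.last j)).symm (x, w) l - u0) i))⁻¹ ^ n =
        (∏ i : Fin j, (ENNReal.ofReal (perp (fun l => w l - u0) i))⁻¹ ^ n) *
          (ENNReal.ofReal ‖(x - u0) -
            (Submodule.span ℝ (Set.range fun l => w l - u0)).starProjection (x - u0)‖)⁻¹ ^ n := by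
      intro x w
      set v := fun l => (MeasurableEquiv.piFinSuccAbove (fun _ => Vec d) (Fin.last j)).symm (x, w) l - u0
        with hv
      have hc : ∀ l : Fin j, v l.castSucc = w l - u0 := by
        intro l
        rw [hv]
        simp only [MeasurableEquiv.piFinSuccAbove_symm_apply, Fin.insertNthEquiv, Equiv.coe_fn_mk]
        rw [← Fin.succAbove_last_apply l, Fin.insertNth_apply_succAbove]
      have hl : v (Fin.last j) = x - u0 := by
        rw [hv]
        simp only [MeasurableEquiv.piFinSuccAbove_symm_apply, Fin.insertNthEquiv, Equiv.coe_fn_mk,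
          Fin.insertNth_apply_same]
      rw [Fin.prod_univ_castSucc]
      congr 1
      · refine Finset.prod_congr rfl fun i _ => ?_
        rw [perp_castSucc]
        simp only [hc]
      · have himg : v '' {l | l < Fin.last j} = Set.range fun l => w l - u0 := by
          ext y
          constructor
          · rintro ⟨l, hlt, rfl⟩
            exact ⟨⟨l, hlt⟩, (hc ⟨l, hlt⟩).symm⟩
          · rintro ⟨l, rfl⟩
            exact ⟨l.castSucc, Fin.castSucc_lt_last l, hc l⟩
        simp only [perp, himg, hl]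
    calc _ = ∫⁻ w, ∫⁻ x, (∏ i : Fin j, (ENNReal.ofReal (perp (fun l => w l - u0) i))⁻¹ ^ n) *
          (ENNReal.ofReal ‖(x - u0) -
            (Submodule.span ℝ (Set.range fun l => w l - u0)).starProjection (x - u0)‖)⁻¹ ^ n
            ∂ν ∂(Measure.pi fun _ : Fin j => ν) := by
          refine lintegral_congr fun w => lintegral_congr fun x => ?_
          exact hsplit x w
      _ ≤ ∫⁻ w, (∏ i : Fin j, (ENNReal.ofReal (perp (fun l => w l - u0) i))⁻¹ ^ n) *
            tubeConst Kf D m n ∂(Measure.pi fun _ : Fin j => ν) := by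
          refine lintegral_mono fun w => ?_
          rw [lintegral_const_mul _ (by fun_prop)]
          gcongr
          refine tube_integral_le hν hD _ ?_ u0
          refine le_trans (finrank_range_le_card (R := ℝ) fun l => w l - u0) ?_
          simp only [Fintype.card_fin]
          omega
      _ ≤ tubeConst Kf D m n ^ (j + 1) := by
          rw [lintegral_mul_const' (tubeConst Kf D m n) _ ENNReal.ofReal_ne_top, pow_succ]
          gcongr
          exact ih (by omega)

/-- The smoothed density of the projection of `ν`. -/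
def projDensity {ι : Type*} [Fintype ι] (ν : Measure (Vec d)) (h : ℝ) (Z : ι → Vec d)
    (y : ι → ℝ) : ℝ≥0∞ :=
  ∫⁻ u, ∏ r, boxKer h (y r - ⟪Z r, u⟫) ∂ν

theorem measurable_projDensity {ι : Type*} [Fintype ι] (ν : Measure (Vec d)) [SFinite ν] (h : ℝ) :
    Measurable fun z : (ι → Vec d) × (ι → ℝ) => projDensity ν h z.1 z.2 := by
  unfold projDensity
  exact Measurable.lintegral_prod_right' (f := fun q : ((ι → Vec d) × (ι → ℝ)) × Vec d =>
    ∏ r, boxKer h (q.1.2 r - ⟪q.1.1 r, q.2⟫)) (by fun_prop)

/-- The moment of the smoothed projection density. -/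
theorem moment_le {ι : Type*} [Fintype ι] {ν : Measure (Vec d)} [IsProbabilityMeasure ν] {Kf : ℝ}
    {D m n : ℕ} (hν : BallFrostman ν Kf D) (hn : Fintype.card ι = n) (hD : m + n + 1 ≤ D)
    {h : ℝ} (hh : 0 < h) :
    ∫⁻ Z, ∫⁻ y, projDensity ν h Z y ^ (m + 1) ∂(volume : Measure (ι → ℝ))
      ∂(Measure.pi fun _ : ι => stdGaussian (Vec d)) ≤ tubeConst Kf D m n ^ m := by
  have hpow : ∀ (Z : ι → Vec d) (y : ι → ℝ), projDensity ν h Z y ^ (m + 1) =
      ∫⁻ w, ∏ i : Fin (m + 1), ∏ r, boxKer h (y r - ⟪Z r, w i⟫) ∂Measure.pi (fun _ => ν) := by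
    intro Z y
    rw [lintegral_pi_prod_self ν (fun _ u => ∏ r, boxKer h (y r - ⟪Z r, u⟫))
      (fun _ => by fun_prop), Finset.prod_const, Finset.card_univ, Fintype.card_fin]
    rfl
  set K : (Fin (m + 1) → Vec d) → Vec d → ℝ → ℝ≥0∞ := fun w z b =>
    ∏ i, boxKer h (b - ⟪z, w i⟫) with hK
  have hswap : ∀ Z : ι → Vec d,
      ∫⁻ y, projDensity ν h Z y ^ (m + 1) ∂(volume : Measure (ι → ℝ)) =
      ∫⁻ w, ∏ r, (∫⁻ b, K w (Z r) b) ∂Measure.pi (fun _ => ν) := by
    intro Z
    simp_rw [hpow]
    rw [lintegral_lintegral_swap (by fun_prop)]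
    refine lintegral_congr fun w => ?_
    rw [volume_pi, ← lintegral_pi_prod_self volume (fun r b => K w (Z r) b) (fun r => by fun_prop)]
    refine lintegral_congr fun y => ?_
    simp only [hK]
    rw [Finset.prod_comm]
  simp_rw [hswap]
  have hmeasK : Measurable fun q : ((Fin (m + 1) → Vec d) × Vec d) => ∫⁻ b, K q.1 q.2 b := by
    refine Measurable.lintegral_prod_right' (f := fun t : ((Fin (m + 1) → Vec d) × Vec d) × ℝ =>
      K t.1.1 t.1.2 t.2) ?_
    simp only [hK]
    fun_prop
  have hA : ∀ r : ι, Measurable fun q : (ι → Vec d) × (Fin (m + 1) → Vec d) =>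
      ∫⁻ b, K q.2 (q.1 r) b :=
    fun r => hmeasK.comp (f := fun q : (ι → Vec d) × (Fin (m + 1) → Vec d) => (q.2, q.1 r))
      (by fun_prop)
  rw [lintegral_lintegral_swap
    (Finset.measurable_prod _ fun r _ => hA r).aemeasurable]
  have hone : ∀ w : Fin (m + 1) → Vec d, ∫⁻ z, (∫⁻ b, K w z b) ∂stdGaussian (Vec d) ≤
      ∏ i : Fin m, (ENNReal.ofReal (perp (fun l : Fin m => w l.succ - w 0) i))⁻¹ := by
    intro w
    have hsub : ∀ z : Vec d, ∫⁻ b, K w z b = ∫⁻ a, boxKer h a *
        ∏ i : Fin m, boxKer h (a - ⟪z, w i.succ - w 0⟫) := by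
      intro z
      rw [← lintegral_add_right_eq_self (fun b => K w z b) ⟪z, w 0⟫]
      refine lintegral_congr fun a => ?_
      simp only [hK]
      rw [Fin.prod_univ_succ, add_sub_cancel_right]
      congr 1
      refine Finset.prod_congr rfl fun i _ => ?_
      rw [inner_sub_right]
      congr 1
      ring
    simp_rw [hsub]
    rw [lintegral_lintegral_swap (by fun_prop)]
    calc ∫⁻ a, ∫⁻ z, boxKer h a * ∏ i : Fin m, boxKer h (a - ⟪z, w i.succ - w 0⟫)
          ∂stdGaussian (Vec d)
        ≤ ∫⁻ a, boxKer h a *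
            ∏ i : Fin m, (ENNReal.ofReal (perp (fun l : Fin m => w l.succ - w 0) i))⁻¹ := by
          refine lintegral_mono fun a => ?_
          rw [lintegral_const_mul _ (by fun_prop)]
          gcongr
          exact proj_prod_le hh (fun l : Fin m => w l.succ - w 0) (fun _ => a)
      _ = _ := by rw [lintegral_mul_const _ (measurable_boxKer h), lintegral_boxKer hh, one_mul]
  calc ∫⁻ w, ∫⁻ Z, ∏ r, (∫⁻ b, K w (Z r) b) ∂(Measure.pi fun _ : ι => stdGaussian (Vec d))
        ∂(Measure.pi fun _ : Fin (m + 1) => ν)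
      ≤ ∫⁻ w, ∏ i : Fin m,
          (ENNReal.ofReal (perp (fun l : Fin m => w l.succ - w 0) i))⁻¹ ^ n
          ∂(Measure.pi fun _ : Fin (m + 1) => ν) := by
        refine lintegral_mono fun w => ?_
        rw [lintegral_pi_prod_self (stdGaussian (Vec d)) (fun _ z => ∫⁻ b, K w z b)
          (fun _ => hmeasK.comp (f := fun z : Vec d => (w, z)) (by fun_prop)), Finset.prod_const,
          Finset.card_univ, hn, Finset.prod_pow]
        gcongr
        exact hone w
    _ ≤ _ := by
        have h := (measurePreserving_piFinSuccAbove (fun _ : Fin (m + 1) => ν) 0).symm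
        rw [← h.lintegral_comp_emb (MeasurableEquiv.measurableEmbedding _)]
        refine le_trans (lintegral_prod_le _) ?_
        calc _ = ∫⁻ x, ∫⁻ w, ∏ i : Fin m,
              (ENNReal.ofReal (perp (fun l : Fin m => w l - x) i))⁻¹ ^ n
              ∂(Measure.pi fun _ : Fin m => ν) ∂ν := by
              refine lintegral_congr fun x => lintegral_congr fun w => ?_
              refine Finset.prod_congr rfl fun i _ => ?_
              congr 4
          _ ≤ ∫⁻ _x, tubeConst Kf D m n ^ m ∂ν :=
              lintegral_mono fun x => perp_tuple_integral_le hν hD x m le_rfl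
          _ = _ := by rw [lintegral_const, measure_univ, mul_one]

/-- The product box kernel has total mass one. -/
theorem lintegral_prod_boxKer {ι : Type*} [Fintype ι] {h : ℝ} (hh : 0 < h) (c : ι → ℝ) :
    ∫⁻ y, ∏ r, boxKer h (y r - c r) ∂(volume : Measure (ι → ℝ)) = 1 := by
  rw [volume_pi, lintegral_pi_prod_self volume (fun r b => boxKer h (b - c r))
    (fun r => by fun_prop)]
  refine Finset.prod_eq_one fun r _ => ?_
  rw [lintegral_sub_right_eq_self (fun b => boxKer h b), lintegral_boxKer hh]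

/-- The key inequality. -/
theorem key_ineq {ι : Type*} [Fintype ι] {ν : Measure (Vec d)} [IsProbabilityMeasure ν] {Kf : ℝ}
    {D m n : ℕ} (hν : BallFrostman ν Kf D) (hn : Fintype.card ι = n) (hm : 1 ≤ m)
    (hD : m + n + 1 ≤ D) (G : (ι → Vec d) × (ι → ℝ) → ℝ≥0∞) (hG : Measurable G)
    (hG1 : ∀ z, G z ≤ 1) :
    ∫⁻ u, ∫⁻ Z, G (Z, fun r => ⟪Z r, u⟫) ∂(Measure.pi fun _ : ι => stdGaussian (Vec d)) ∂ν ≤
      tubeConst Kf D m n *
        (∫⁻ z, G z ∂((Measure.pi fun _ : ι => stdGaussian (Vec d)).prod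
          (volume : Measure (ι → ℝ)))) ^ ((m : ℝ) / (m + 1)) := by
  set Γ := Measure.pi fun _ : ι => stdGaussian (Vec d) with hΓ
  set μ := Γ.prod (volume : Measure (ι → ℝ)) with hμ
  haveI : IsLocallyFiniteMeasure μ := by infer_instance
  set β := (m : ℝ) / (m + 1) with hβ
  have hβ0 : 0 < β := by
    have : (1 : ℝ) ≤ m := by exact_mod_cast hm
    positivity
  set T := tubeConst Kf D m n with hT
  -- for lower semicontinuous tests
  have main : ∀ g : (ι → Vec d) × (ι → ℝ) → ℝ≥0∞, LowerSemicontinuous g → (∀ z, g z ≤ 1) →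
      ∫⁻ u, ∫⁻ Z, g (Z, fun r => ⟪Z r, u⟫) ∂Γ ∂ν ≤ T * (∫⁻ z, g z ∂μ) ^ β := by
    intro g hg hg1
    have hgm : Measurable g := hg.measurable
    set hs : ℕ → ℝ := fun k => 1 / (k + 1) with hhs
    have hpos : ∀ k, 0 < hs k := fun k => by positivity
    set A : ℕ → Vec d → (ι → Vec d) → ℝ≥0∞ := fun k u Z =>
      ∫⁻ y, g (Z, y) * ∏ r, boxKer (hs k) (y r - ⟪Z r, u⟫) ∂(volume : Measure (ι → ℝ)) with hA
    have hAm : ∀ k, Measurable fun q : Vec d × (ι → Vec d) => A k q.1 q.2 := by
      intro k
      refine Measurable.lintegral_prod_right' (f := fun t : (Vec d × (ι → Vec d)) × (ι → ℝ) =>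
        g (t.1.2, t.2) * ∏ r, boxKer (hs k) (t.2 r - ⟪t.1.2 r, t.1.1⟫)) ?_
      fun_prop
    have hlim : ∀ (u : Vec d) (Z : ι → Vec d),
        g (Z, fun r => ⟪Z r, u⟫) ≤ liminf (fun k => A k u Z) atTop := by
      intro u Z
      refine le_of_forall_lt fun a ha => ?_
      obtain ⟨b, hab, hb⟩ := exists_between ha
      refine lt_of_lt_of_le hab (le_liminf_of_le (by isBoundedDefault) ?_)
      have hopen : ∀ᶠ y in 𝓝 (fun r => ⟪Z r, u⟫), b < g (Z, y) :=
        (Continuous.prodMk_right Z).continuousAt.eventually (hg (Z, fun r => ⟪Z r, u⟫) b hb)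
      rw [Metric.eventually_nhds_iff] at hopen
      obtain ⟨δ, hδ, hball⟩ := hopen
      filter_upwards [tendsto_one_div_add_atTop_nhds_zero_nat.eventually (gt_mem_nhds hδ)]
        with k hk
      calc b = b * ∫⁻ y, ∏ r, boxKer (hs k) (y r - ⟪Z r, u⟫) ∂(volume : Measure (ι → ℝ)) := by
            rw [lintegral_prod_boxKer (hpos k), mul_one]
        _ = ∫⁻ y, b * ∏ r, boxKer (hs k) (y r - ⟪Z r, u⟫) ∂(volume : Measure (ι → ℝ)) := by
            rw [lintegral_const_mul _ (by fun_prop)]
        _ ≤ A k u Z := by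
            refine lintegral_mono fun y => ?_
            by_cases hy : ∀ r, |y r - ⟪Z r, u⟫| < hs k
            · gcongr
              refine (hball ?_).le
              rw [dist_pi_lt_iff hδ]
              intro r
              rw [Real.dist_eq]
              exact lt_trans (hy r) hk
            · push_neg at hy
              obtain ⟨r, hr⟩ := hy
              have : ∏ r, boxKer (hs k) (y r - ⟪Z r, u⟫) = 0 := by
                refine Finset.prod_eq_zero (Finset.mem_univ r) ?_
                simp only [boxKer]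
                rw [Set.indicator_of_notMem, mul_zero]
                rw [Set.mem_Ioo, ← abs_lt]
                exact not_lt.2 hr
              simp [this]
    calc ∫⁻ u, ∫⁻ Z, g (Z, fun r => ⟪Z r, u⟫) ∂Γ ∂ν
        ≤ ∫⁻ u, liminf (fun k => ∫⁻ Z, A k u Z ∂Γ) atTop ∂ν := by
          refine lintegral_mono fun u => ?_
          refine le_trans (lintegral_mono (hlim u)) (lintegral_liminf_le fun k => ?_)
          exact (hAm k).comp (f := fun Z => (u, Z)) (by fun_prop)
      _ ≤ liminf (fun k => ∫⁻ u, ∫⁻ Z, A k u Z ∂Γ ∂ν) atTop :=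
          lintegral_liminf_le fun k => Measurable.lintegral_prod_right'
            (f := fun q : Vec d × (ι → Vec d) => A k q.1 q.2) (hAm k)
      _ ≤ T * (∫⁻ z, g z ∂μ) ^ β := by
          refine liminf_le_of_le (by isBoundedDefault) fun b hb => ?_
          obtain ⟨k, hk⟩ := hb.exists
          refine le_trans hk ?_
          have hp := measurable_projDensity (ι := ι) ν (hs k)
          have hI : ∫⁻ u, ∫⁻ Z, A k u Z ∂Γ ∂ν =
              ∫⁻ z, g z * projDensity ν (hs k) z.1 z.2 ∂μ := by
            rw [lintegral_lintegral_swap (hAm k).aemeasurable, hμ,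
              lintegral_prod (fun z => g z * projDensity ν (hs k) z.1 z.2) (hgm.mul hp).aemeasurable]
            refine lintegral_congr fun Z => ?_
            simp only [hA]
            rw [lintegral_lintegral_swap (by fun_prop)]
            refine lintegral_congr fun y => ?_
            rw [lintegral_const_mul _ (by fun_prop)]
            rfl
          rw [hI]
          have hconj : Real.HolderConjugate (((m : ℝ) + 1) / m) ((m : ℝ) + 1) := by
            have : (1 : ℝ) ≤ m := by exact_mod_cast hm
            rw [Real.holderConjugate_iff]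
            refine ⟨by rw [lt_div_iff₀ (by positivity)]; linarith, ?_⟩
            field_simp
          refine le_trans (ENNReal.lintegral_mul_le_Lp_mul_Lq μ hconj hgm.aemeasurable
            hp.aemeasurable) ?_
          rw [mul_comm T, one_div_div]
          gcongr
          · exact ENNReal.rpow_le_self_of_le_one (hg1 _) hconj.lt.le
          · calc (∫⁻ z, projDensity ν (hs k) z.1 z.2 ^ ((m : ℝ) + 1) ∂μ) ^ (1 / ((m : ℝ) + 1))
                ≤ (T ^ m) ^ (1 / ((m : ℝ) + 1)) := by
                  gcongr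
                  rw [hμ, lintegral_prod _ (hp.pow_const _).aemeasurable]
                  refine le_of_eq_of_le ?_ (moment_le hν hn hD (hpos k))
                  refine lintegral_congr fun Z => lintegral_congr fun y => ?_
                  rw [← Nat.cast_add_one, ENNReal.rpow_natCast]
              _ ≤ T := by
                  rw [← ENNReal.rpow_natCast, ← ENNReal.rpow_mul]
                  refine le_of_le_of_eq (ENNReal.rpow_le_rpow_of_exponent_le
                    (one_le_tubeConst hν.one_le D m n) ?_) (ENNReal.rpow_one T)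
                  rw [mul_one_div, div_le_one (by positivity)]
                  linarith
  -- general measurable tests
  have hlim : Tendsto (fun k : ℕ => T * (∫⁻ z, G z ∂μ + (k : ℝ≥0∞)⁻¹) ^ β) atTop
      (𝓝 (T * (∫⁻ z, G z ∂μ + 0) ^ β)) := by
    refine ENNReal.Tendsto.const_mul ?_ (Or.inr ENNReal.ofReal_ne_top)
    exact (tendsto_const_nhds.add ENNReal.tendsto_inv_nat_nhds_zero).ennrpow_const β
  rw [add_zero] at hlim
  refine ge_of_tendsto' hlim fun k => ?_
  obtain ⟨g, hGg, hglsc, hgint⟩ := exists_le_lowerSemicontinuous_lintegral_ge μ G hG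
    (ε := (k : ℝ≥0∞)⁻¹) (ENNReal.inv_ne_zero.2 (ENNReal.natCast_ne_top k))
  have hmin : LowerSemicontinuous fun z => min (g z) 1 := hglsc.inf lowerSemicontinuous_const
  calc ∫⁻ u, ∫⁻ Z, G (Z, fun r => ⟪Z r, u⟫) ∂Γ ∂ν
      ≤ ∫⁻ u, ∫⁻ Z, min (g (Z, fun r => ⟪Z r, u⟫)) 1 ∂Γ ∂ν :=
        lintegral_mono fun u => lintegral_mono fun Z => le_min (hGg _) (hG1 _)
    _ ≤ T * (∫⁻ z, min (g z) 1 ∂μ) ^ β := main _ hmin (fun z => min_le_right _ _)
    _ ≤ _ := by
        gcongr
        exact le_trans (lintegral_mono fun z => min_le_left _ _) hgint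

end Vale.Agent.P309
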