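import Mathlib

/-!
The streaming regression model: learners with finitely many persistent states, their success
probability, and the uniform law on the unit sphere.
-/

noncomputable section

open MeasureTheory ProbabilityTheory
open scoped RealInnerProductSpace ENNReal

namespace Vale.Agent.P309

abbrev Vec (d : ℕ) := EuclideanSpace ℝ (Fin d)

/-- The uniform law on the unit sphere: the law of `g / ‖g‖` for standard Gaussian `g`. -/
def sphereUniform (d : ℕ) : Measure (Vec d) :=
  (stdGaussian (Vec d)).map (fun g => ‖g‖⁻¹ • g)

/-- A learner with `N` persistent states. At index `t` it reads the pair `z` in state `w` and,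
with probability `step t w z o`, either continues in state `o = inl w'` or stops with final state
`o = inr w'`. The output law `out t w` depends on the number of samples read and the final state,
and lives on the unit sphere. -/
structure Learner (d N : ℕ) where
  init : Fin N → ℝ
  init_nonneg : ∀ w, 0 ≤ init w
  init_sum : ∑ w, init w = 1
  step : ℕ → Fin N → Vec d × ℝ → Fin N ⊕ Fin N → ℝ
  step_nonneg : ∀ t w z o, 0 ≤ step t w z o
  step_sum : ∀ t w z, ∑ o, step t w z o = 1
  step_measurable : ∀ t w o, Measurable (fun z => step t w z o)
  out : ℕ → Fin N → Measure (Vec d)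
  out_prob : ∀ t w, IsProbabilityMeasure (out t w)
  out_sphere : ∀ t w, ∀ᵐ v ∂out t w, ‖v‖ = 1

/-- The probability that the output of `out t w` is within angle `ε` of `s`. -/
def hitProb {d N : ℕ} (L : Learner d N) (ε : ℝ) (t : ℕ) (w : Fin N) (s : Vec d) : ℝ :=
  (L.out t w).real {v | Real.arccos ⟪v, s⟫ ≤ ε}

/-- Probability of success for signal `s` when in state `w` after `t` samples, with at most `n`
samples left; every row is a fresh standard Gaussian vector and every label is exact. -/
def successFrom {d N : ℕ} (L : Learner d N) (ε : ℝ) : ℕ → ℕ → Fin N → Vec d → ℝ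
  | 0, t, w, s => hitProb L ε t w s
  | n + 1, t, w, s =>
      ∫ x, ∑ o, L.step t w (x, ⟪x, s⟫) o *
        Sum.elim (fun w' => successFrom L ε n (t + 1) w' s)
          (fun w' => hitProb L ε (t + 1) w' s) o ∂stdGaussian (Vec d)

/-- Success probability with horizon `T`, for a uniformly random signal on the sphere. -/
def successProb {d N : ℕ} (L : Learner d N) (T : ℕ) (ε : ℝ) : ℝ :=
  ∫ s, ∑ w, L.init w * successFrom L ε T 0 w s ∂sphereUniform d

end Vale.Agent.P309
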