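import Vale.Agent.P309.Key
import Vale.Agent.P309.Entropy

/-!
One phase of samples carries little information about a signal whose law is Frostman inside a
ball.
-/

noncomputable section

open MeasureTheory ProbabilityTheory Finset
open scoped RealInnerProductSpace ENNReal NNReal

namespace Vale.Agent.P309

variable {d k : ℕ}

/-- The law of the `k` rows of a phase. -/
abbrev rows (d k : ℕ) : Measure (Fin k → Vec d) := Measure.pi fun _ => stdGaussian (Vec d)

/-- The probability that a test accepts the samples of a phase, for signal `s`. -/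
def accept (F : (Fin k → Vec d) × (Fin k → ℝ) → ℝ) (s : Vec d) : ℝ :=
  ∫ X, F (X, fun i => ⟪X i, s⟫) ∂rows d k

theorem measurable_accept {F : (Fin k → Vec d) × (Fin k → ℝ) → ℝ} (hF : Measurable F) :
    Measurable (accept F) := by
  have : Measurable fun q : Vec d × (Fin k → Vec d) => F (q.2, fun i => ⟪q.2 i, q.1⟫) :=
    hF.comp (by fun_prop)
  exact (this.stronglyMeasurable.integral_prod_right').measurable

theorem integrable_test {F : (Fin k → Vec d) × (Fin k → ℝ) → ℝ} (hF : Measurable F)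
    (h0 : ∀ z, 0 ≤ F z) (h1 : ∀ z, F z ≤ 1) (s : Vec d) :
    Integrable (fun X => F (X, fun i => ⟪X i, s⟫)) (rows d k) :=
  Integrable.of_bound ((hF.comp (by fun_prop : Measurable fun X : Fin k → Vec d =>
    (X, fun i => ⟪X i, s⟫))).aestronglyMeasurable) 1
    (ae_of_all _ fun X => by rw [Real.norm_eq_abs, abs_of_nonneg (h0 _)]; exact h1 _)

theorem accept_nonneg {F : (Fin k → Vec d) × (Fin k → ℝ) → ℝ} (h0 : ∀ z, 0 ≤ F z) (s : Vec d) :
    0 ≤ accept F s :=
  integral_nonneg fun _ => h0 _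

theorem accept_le_one {F : (Fin k → Vec d) × (Fin k → ℝ) → ℝ} (hF : Measurable F)
    (h0 : ∀ z, 0 ≤ F z) (h1 : ∀ z, F z ≤ 1) (s : Vec d) : accept F s ≤ 1 :=
  (integral_mono (integrable_test hF h0 h1 s) (integrable_const 1) fun _ => h1 _).trans_eq
    (by simp)

theorem ofReal_accept {F : (Fin k → Vec d) × (Fin k → ℝ) → ℝ} (hF : Measurable F)
    (h0 : ∀ z, 0 ≤ F z) (h1 : ∀ z, F z ≤ 1) (s : Vec d) :
    ENNReal.ofReal (accept F s) =
      ∫⁻ X, ENNReal.ofReal (F (X, fun i => ⟪X i, s⟫)) ∂rows d k :=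
  ofReal_integral_eq_lintegral_ofReal (integrable_test hF h0 h1 s) (ae_of_all _ fun _ => h0 _)

/-- Reference weight of a test: labels replaced by independent standard Gaussians. -/
def refWeight (F : (Fin k → Vec d) × (Fin k → ℝ) → ℝ) : ℝ≥0∞ :=
  ∫⁻ X, ∫⁻ y, ENNReal.ofReal (F (X, y)) * ∏ i, gaussianPDF 0 1 (y i)
    ∂(volume : Measure (Fin k → ℝ)) ∂rows d k

/-- The factor between Lebesgue and Gaussian weights on the window of radius `2√d`. -/
def windowConst (d k : ℕ) : ℝ := Real.exp (2 * d) * √(2 * Real.pi) ^ k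

theorem one_le_windowConst (d k : ℕ) : 1 ≤ windowConst d k :=
  one_le_mul_of_one_le_of_one_le (Real.one_le_exp (by positivity))
    (one_le_pow₀ (Real.one_le_sqrt.2 (by linarith [Real.two_le_pi])))

theorem lintegral_le_refWeight {F : (Fin k → Vec d) × (Fin k → ℝ) → ℝ} (hF : Measurable F)
    (hwin : ∀ z, F z ≠ 0 → ∑ i, z.2 i ^ 2 ≤ 4 * d) :
    ∫⁻ z, ENNReal.ofReal (F z) ∂((rows d k).prod (volume : Measure (Fin k → ℝ))) ≤
      ENNReal.ofReal (windowConst d k) * refWeight F := by
  rw [lintegral_prod _ (by fun_prop), refWeight, ← lintegral_const_mul' _ _ ENNReal.ofReal_ne_top]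
  refine lintegral_mono fun X => ?_
  rw [← lintegral_const_mul' _ _ ENNReal.ofReal_ne_top]
  refine lintegral_mono fun y => ?_
  by_cases h : F (X, y) = 0
  · simp [h]
  have hy : ∑ i, y i ^ 2 ≤ 4 * d := hwin (X, y) h
  have hp : ∏ i, gaussianPDF 0 1 (y i) =
      ENNReal.ofReal ((√(2 * Real.pi))⁻¹ ^ k * Real.exp (-(∑ i, y i ^ 2) / 2)) := by
    simp only [gaussianPDF, gaussianPDFReal, NNReal.coe_one, mul_one, sub_zero]
    rw [← ENNReal.ofReal_prod_of_nonneg (fun i _ => by positivity), Finset.prod_mul_distrib,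
      Finset.prod_const, Finset.card_univ, Fintype.card_fin, ← Real.exp_sum]
    congr 2
    rw [neg_div, Finset.sum_div, ← Finset.sum_neg_distrib]
    simp [neg_div]
  have hone : 1 ≤ windowConst d k *
      ((√(2 * Real.pi))⁻¹ ^ k * Real.exp (-(∑ i, y i ^ 2) / 2)) := by
    have e : windowConst d k * ((√(2 * Real.pi))⁻¹ ^ k * Real.exp (-(∑ i, y i ^ 2) / 2)) =
        Real.exp (2 * d) * Real.exp (-(∑ i, y i ^ 2) / 2) := by
      rw [windowConst, inv_pow]
      field_simp
    rw [e, ← Real.exp_add]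
    exact Real.one_le_exp (by linarith)
  calc ENNReal.ofReal (F (X, y)) = ENNReal.ofReal (F (X, y)) * 1 := (mul_one _).symm
    _ ≤ ENNReal.ofReal (F (X, y)) *
        (ENNReal.ofReal (windowConst d k) * ∏ i, gaussianPDF 0 1 (y i)) := by
          gcongr
          rw [hp, ← ENNReal.ofReal_mul (le_trans zero_le_one (one_le_windowConst d k)),
            ENNReal.one_le_ofReal]
          exact hone
    _ = _ := by ring

theorem sum_refWeight_le {O : Type*} [Fintype O] (F : O → (Fin k → Vec d) × (Fin k → ℝ) → ℝ)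
    (hF : ∀ o, Measurable (F o)) (h0 : ∀ o z, 0 ≤ F o z) (hsum : ∀ z, ∑ o, F o z ≤ 1) :
    ∑ o, refWeight (F o) ≤ 1 := by
  simp only [refWeight]
  rw [← lintegral_finsetSum _ (fun o _ => Measurable.lintegral_prod_right' (f := fun q :
    (Fin k → Vec d) × (Fin k → ℝ) => ENNReal.ofReal (F o q) * ∏ i, gaussianPDF 0 1 (q.2 i))
    (by fun_prop))]
  calc ∫⁻ X, ∑ o, ∫⁻ y, ENNReal.ofReal (F o (X, y)) * ∏ i, gaussianPDF 0 1 (y i)
        ∂(volume : Measure (Fin k → ℝ)) ∂rows d k
      ≤ ∫⁻ _X, ∫⁻ y, ∏ i, gaussianPDF 0 1 (y i) ∂(volume : Measure (Fin k → ℝ)) ∂rows d k := by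
        refine lintegral_mono fun X => ?_
        rw [← lintegral_finsetSum _ (fun o _ => by fun_prop)]
        refine lintegral_mono fun y => ?_
        rw [← Finset.sum_mul, ← ENNReal.ofReal_sum_of_nonneg (fun o _ => h0 o _)]
        exact le_of_le_of_eq (mul_le_mul_left (ENNReal.ofReal_le_one.2 (hsum _)) _) (one_mul _)
    _ = 1 := by
        rw [lintegral_const, measure_univ, mul_one, volume_pi,
          lintegral_pi_prod_self volume (fun _ b => gaussianPDF 0 1 b) (fun _ => by fun_prop)]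
        simp [lintegral_gaussianPDF_eq_one]

/-- The second moment of a windowed test under a Frostman law. -/
theorem sq_accept_le {ν : Measure (Vec d)} [IsProbabilityMeasure ν] {Kf : ℝ} {D m : ℕ}
    (hν : BallFrostman ν Kf D) (hm : 1 ≤ m) (hD : m + 2 * k + 1 ≤ D)
    {F : (Fin k → Vec d) × (Fin k → ℝ) → ℝ} (hF : Measurable F) (h0 : ∀ z, 0 ≤ F z)
    (h1 : ∀ z, F z ≤ 1) (hwin : ∀ z, F z ≠ 0 → ∑ i, z.2 i ^ 2 ≤ 4 * d) (hlam : refWeight F ≠ ⊤) :
    ∫ s, accept F s ^ 2 ∂ν ≤
      Kf * 2 ^ (2 * k + D + 5 * m + 2) * windowConst d k ^ 2 *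
        (refWeight F).toReal ^ (2 * ((m : ℝ) / (m + 1))) := by
  have hK : 0 ≤ Kf := le_trans zero_le_one hν.one_le
  set β := (m : ℝ) / (m + 1) with hβ
  have hβ0 : 0 ≤ β := by positivity
  have hβ1 : β ≤ 1 := by rw [hβ, div_le_one (by positivity)]; linarith
  set eX := MeasurableEquiv.sumPiEquivProdPi (fun _ : Fin k ⊕ Fin k => Vec d)
  set eY := MeasurableEquiv.sumPiEquivProdPi (fun _ : Fin k ⊕ Fin k => ℝ)
  set Fe : (Fin k → Vec d) × (Fin k → ℝ) → ℝ≥0∞ := fun z => ENNReal.ofReal (F z) with hFe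
  have hFem : Measurable Fe := by fun_prop
  set G : (Fin k ⊕ Fin k → Vec d) × (Fin k ⊕ Fin k → ℝ) → ℝ≥0∞ := fun z =>
    Fe ((eX z.1).1, (eY z.2).1) * Fe ((eX z.1).2, (eY z.2).2) with hG
  have hGm : Measurable G := by
    simp only [hG]
    exact (hFem.comp (by fun_prop)).mul (hFem.comp (by fun_prop))
  have hG1 : ∀ z, G z ≤ 1 := fun z =>
    mul_le_one' (ENNReal.ofReal_le_one.2 (h1 _)) (ENNReal.ofReal_le_one.2 (h1 _))
  have hX : MeasurePreserving eX (Measure.pi fun _ : Fin k ⊕ Fin k => stdGaussian (Vec d))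
      ((rows d k).prod (rows d k)) :=
    measurePreserving_sumPiEquivProdPi fun _ : Fin k ⊕ Fin k => stdGaussian (Vec d)
  have hY : MeasurePreserving eY (volume : Measure (Fin k ⊕ Fin k → ℝ))
      ((volume : Measure (Fin k → ℝ)).prod volume) := by
    simpa [volume_pi] using
      measurePreserving_sumPiEquivProdPi fun _ : Fin k ⊕ Fin k => (volume : Measure ℝ)
  have hkey := key_ineq hν (ι := Fin k ⊕ Fin k) (n := 2 * k) (by simp [two_mul]) hm hD G hGm hG1
  have hlhs : ∀ s : Vec d, ∫⁻ Z, G (Z, fun r => ⟪Z r, s⟫)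
      ∂(Measure.pi fun _ : Fin k ⊕ Fin k => stdGaussian (Vec d)) =
      ENNReal.ofReal (accept F s ^ 2) := by
    intro s
    have hms : Measurable fun X : Fin k → Vec d => Fe (X, fun i => ⟪X i, s⟫) :=
      hFem.comp (by fun_prop)
    rw [sq, ENNReal.ofReal_mul (accept_nonneg h0 s), ofReal_accept hF h0 h1 s,
      ← lintegral_prod_mul hms.aemeasurable hms.aemeasurable,
      ← hX.lintegral_comp (f := fun q : (Fin k → Vec d) × (Fin k → Vec d) =>
          Fe (q.1, fun i => ⟪q.1 i, s⟫) * Fe (q.2, fun i => ⟪q.2 i, s⟫))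
        ((hms.comp measurable_fst).mul (hms.comp measurable_snd))]
    rfl
  have hrhs : ∫⁻ z, G z ∂((Measure.pi fun _ : Fin k ⊕ Fin k => stdGaussian (Vec d)).prod
      (volume : Measure (Fin k ⊕ Fin k → ℝ))) ≤
      (ENNReal.ofReal (windowConst d k) * refWeight F) ^ 2 := by
    have hin : ∀ Z, ∫⁻ y, G (Z, y) ∂(volume : Measure (Fin k ⊕ Fin k → ℝ)) =
        (∫⁻ y, Fe ((eX Z).1, y)) * ∫⁻ y, Fe ((eX Z).2, y) := by
      intro Z
      have m1 : Measurable fun y : Fin k → ℝ => Fe ((eX Z).1, y) := hFem.comp (by fun_prop)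
      have m2 : Measurable fun y : Fin k → ℝ => Fe ((eX Z).2, y) := hFem.comp (by fun_prop)
      rw [← lintegral_prod_mul m1.aemeasurable m2.aemeasurable,
        ← hY.lintegral_comp (f := fun q : (Fin k → ℝ) × (Fin k → ℝ) =>
            Fe ((eX Z).1, q.1) * Fe ((eX Z).2, q.2))
          ((m1.comp measurable_fst).mul (m2.comp measurable_snd))]
    have mI : Measurable fun X : Fin k → Vec d => ∫⁻ y, Fe (X, y) :=
      Measurable.lintegral_prod_right' (f := fun q => Fe q) hFem
    rw [lintegral_prod _ hGm.aemeasurable]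
    simp_rw [hin]
    rw [hX.lintegral_comp (f := fun q => (∫⁻ y, Fe (q.1, y)) * ∫⁻ y, Fe (q.2, y))
      ((mI.comp measurable_fst).mul (mI.comp measurable_snd)),
      lintegral_prod_mul mI.aemeasurable mI.aemeasurable, sq]
    have := lintegral_le_refWeight hF hwin
    rw [lintegral_prod _ (by fun_prop)] at this
    exact mul_le_mul' this this
  have hfin : ∫⁻ s, ENNReal.ofReal (accept F s ^ 2) ∂ν ≤
      tubeConst Kf D m (2 * k) * ((ENNReal.ofReal (windowConst d k) * refWeight F) ^ 2) ^ β := by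
    simp_rw [← hlhs]
    refine le_trans hkey ?_
    gcongr
  have hW1 := one_le_windowConst d k
  rw [integral_eq_lintegral_of_nonneg_ae (ae_of_all _ fun s => sq_nonneg _)
    ((measurable_accept hF).pow_const 2).aestronglyMeasurable]
  refine ENNReal.toReal_le_of_le_ofReal (by positivity) (le_trans hfin ?_)
  set W := windowConst d k
  set L := (refWeight F).toReal
  have hL : refWeight F = ENNReal.ofReal L := (ENNReal.ofReal_toReal hlam).symm
  rw [hL, tubeConst, ← ENNReal.ofReal_mul (by linarith), ← ENNReal.ofReal_pow (by positivity),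
    ENNReal.ofReal_rpow_of_nonneg (by positivity) hβ0, ← ENNReal.ofReal_mul (by positivity)]
  refine ENNReal.ofReal_le_ofReal ?_
  rw [mul_pow, Real.mul_rpow (by positivity) (by positivity), ← mul_assoc]
  have hL0 : 0 ≤ L := ENNReal.toReal_nonneg
  have eL : (L ^ 2) ^ β = L ^ (2 * β) := by
    rw [← Real.rpow_natCast L 2, ← Real.rpow_mul hL0]
    norm_num
  rw [eL]
  gcongr
  refine le_of_le_of_eq (Real.rpow_le_rpow_of_exponent_le (one_le_pow₀ hW1) hβ1) (Real.rpow_one _)

/-- The number of a phase's worth of information, for parameters `d, k, m, D`. -/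
def phaseConst (d k m D : ℕ) : ℝ :=
  (2 * k + D + 5 * m + 2 : ℕ) * Real.log 2 + 2 * Real.log (windowConst d k) + 6

/-- A windowed test. -/
def windowed (F : (Fin k → Vec d) × (Fin k → ℝ) → ℝ) :
    (Fin k → Vec d) × (Fin k → ℝ) → ℝ :=
  {z | ∑ i, z.2 i ^ 2 ≤ 4 * (d : ℝ)}.indicator F

theorem measurable_windowed {F : (Fin k → Vec d) × (Fin k → ℝ) → ℝ} (hF : Measurable F) :
    Measurable (windowed F) :=
  hF.indicator (measurableSet_le (by fun_prop) (by fun_prop))

theorem windowed_nonneg {F : (Fin k → Vec d) × (Fin k → ℝ) → ℝ} (h0 : ∀ z, 0 ≤ F z)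
    (z : (Fin k → Vec d) × (Fin k → ℝ)) : 0 ≤ windowed F z :=
  Set.indicator_nonneg (fun z _ => h0 z) z

theorem windowed_le {F : (Fin k → Vec d) × (Fin k → ℝ) → ℝ} (h0 : ∀ z, 0 ≤ F z)
    (z : (Fin k → Vec d) × (Fin k → ℝ)) : windowed F z ≤ F z :=
  Set.indicator_apply_le' (fun _ => le_rfl) (fun _ => h0 z)

theorem windowed_support {F : (Fin k → Vec d) × (Fin k → ℝ) → ℝ}
    {z : (Fin k → Vec d) × (Fin k → ℝ)} (h : windowed F z ≠ 0) :
    ∑ i, z.2 i ^ 2 ≤ 4 * (d : ℝ) :=
  Set.mem_of_indicator_ne_zero (s := {z : (Fin k → Vec d) × (Fin k → ℝ) |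
    ∑ i, z.2 i ^ 2 ≤ 4 * (d : ℝ)}) h

/-- The part of the tests outside the window is rare. -/
theorem sum_outside_le {O : Type*} [Fintype O] (F : O → (Fin k → Vec d) × (Fin k → ℝ) → ℝ)
    (hF : ∀ o, Measurable (F o)) (h0 : ∀ o z, 0 ≤ F o z) (hsum : ∀ z, ∑ o, F o z = 1)
    (u : Vec d) (hu : ‖u‖ ≤ 1) :
    ∑ o, (accept (F o) u - accept (windowed (F o)) u) ≤ Real.exp (-(d : ℝ)) * 2 ^ k := by
  have hF1 : ∀ o z, F o z ≤ 1 := fun o z =>
    (Finset.single_le_sum (fun o' _ => h0 o' z) (Finset.mem_univ o)).trans_eq (hsum z)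
  have i1 : ∀ o, Integrable (fun X => F o (X, fun i => ⟪X i, u⟫)) (rows d k) :=
    fun o => integrable_test (hF o) (h0 o) (hF1 o) u
  have i2 : ∀ o, Integrable (fun X => windowed (F o) (X, fun i => ⟪X i, u⟫)) (rows d k) :=
    fun o => integrable_test (measurable_windowed (hF o)) (windowed_nonneg (h0 o))
      (fun z => le_trans (windowed_le (h0 o) z) (hF1 o z)) u
  set S := {X : Fin k → Vec d | 4 * (d : ℝ) < ∑ i, ⟪X i, u⟫ ^ 2} with hS
  have hset : MeasurableSet S := measurableSet_lt measurable_const (by fun_prop)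
  have e : ∀ o, accept (F o) u - accept (windowed (F o)) u =
      ∫ X, (F o (X, fun i => ⟪X i, u⟫) - windowed (F o) (X, fun i => ⟪X i, u⟫)) ∂rows d k :=
    fun o => (integral_sub (i1 o) (i2 o)).symm
  simp_rw [e]
  rw [← integral_finsetSum _ (fun o _ => (i1 o).sub' (i2 o))]
  have hpt : ∀ X, ∑ o, (F o (X, fun i => ⟪X i, u⟫) - windowed (F o) (X, fun i => ⟪X i, u⟫)) =
      S.indicator 1 X := by
    intro X
    simp only [windowed, Set.indicator_apply, Set.mem_setOf_eq, hS]
    by_cases hX : ∑ i, ⟪X i, u⟫ ^ 2 ≤ 4 * (d : ℝ)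
    · simp [hX, not_lt.2 hX]
    · simp [hX, not_le.1 hX, hsum]
  simp_rw [hpt]
  rw [integral_indicator_one hset]
  refine ENNReal.toReal_le_of_le_ofReal (by positivity) ?_
  refine le_trans (proj_tail u hu _) (le_of_eq ?_)
  rw [Fintype.card_fin]
  congr 3
  ring

/-- The information gain of one phase, in normalised coordinates. -/
theorem phase_info_unit {O : Type*} [Fintype O] {ν : Measure (Vec d)} [IsProbabilityMeasure ν]
    {Kf : ℝ} {D m : ℕ} (hν : BallFrostman ν Kf D) (hm : 1 ≤ m) (hD : m + 2 * k + 1 ≤ D)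
    (F : O → (Fin k → Vec d) × (Fin k → ℝ) → ℝ) (hF : ∀ o, Measurable (F o))
    (h0 : ∀ o z, 0 ≤ F o z) (hsum : ∀ z, ∑ o, F o z = 1) {R : Finset O} {K : ℕ}
    (hR : R.card ≤ K) (hout : ∀ o, o ∉ R → ∀ z, F o z = 0) :
    ∑ o, (∫ s, accept (F o) s * Real.log (accept (F o) s) ∂ν -
        (∫ s, accept (F o) s ∂ν) * Real.log (∫ s, accept (F o) s ∂ν)) ≤
      Real.log Kf + phaseConst d k m D + (2 / (m + 1) + Real.exp (-(d : ℝ)) * 2 ^ k) *
        Real.log K := by
  have hF1 : ∀ o z, F o z ≤ 1 := fun o z =>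
    (Finset.single_le_sum (fun o' _ => h0 o' z) (Finset.mem_univ o)).trans_eq (hsum z)
  have hw1 : ∀ o z, windowed (F o) z ≤ 1 := fun o z => le_trans (windowed_le (h0 o) z) (hF1 o z)
  have hwm := fun o => measurable_windowed (hF o)
  have hw0 := fun o => windowed_nonneg (h0 o)
  have hwle : ∀ o u, accept (windowed (F o)) u ≤ accept (F o) u := fun o u =>
    integral_mono (integrable_test (hwm o) (hw0 o) (hw1 o) u)
      (integrable_test (hF o) (h0 o) (hF1 o) u) fun X => windowed_le (h0 o) _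
  have hgsum : ∀ u, ∑ o, accept (F o) u = 1 := by
    intro u
    simp only [accept]
    rw [← integral_finsetSum _ (fun o _ => integrable_test (hF o) (h0 o) (hF1 o) u)]
    simp [hsum]
  have hsr : ∑ o, refWeight (windowed (F o)) ≤ 1 := sum_refWeight_le _ hwm hw0 fun z =>
    le_trans (Finset.sum_le_sum fun o _ => windowed_le (h0 o) z) (le_of_eq (hsum z))
  have hlamfin : ∀ o, refWeight (windowed (F o)) ≠ ⊤ := fun o =>
    ne_top_of_le_ne_top ENNReal.one_ne_top (le_trans
      (Finset.single_le_sum (f := fun o => refWeight (windowed (F o))) (fun _ _ => bot_le)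
        (Finset.mem_univ o)) hsr)
  have hlamsum : ∑ o, (refWeight (windowed (F o))).toReal ≤ 1 := by
    rw [← ENNReal.toReal_sum fun o _ => hlamfin o]
    exact ENNReal.toReal_le_of_le_ofReal zero_le_one (by rwa [ENNReal.ofReal_one])
  set pb := Real.exp (-(d : ℝ)) * 2 ^ k
  set A := Kf * 2 ^ (2 * k + D + 5 * m + 2) * windowConst d k ^ 2 with hA
  have hW1 := one_le_windowConst d k
  have hK1 := hν.one_le
  have hA1 : 1 ≤ A := one_le_mul_of_one_le_of_one_le
    (one_le_mul_of_one_le_of_one_le hK1 (one_le_pow₀ (by norm_num))) (one_le_pow₀ hW1)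
  have hdiff1 : ∀ u, ∑ o, (accept (F o) u - accept (windowed (F o)) u) ≤ 1 := fun u =>
    le_trans (Finset.sum_le_sum fun o _ => sub_le_self _ (accept_nonneg (hw0 o) u)) (hgsum u).le
  have hpbint : ∫ u, ∑ o, (accept (F o) u - accept (windowed (F o)) u) ∂ν ≤ min pb 1 := by
    have hint : Integrable (fun u => ∑ o, (accept (F o) u - accept (windowed (F o)) u)) ν := by
      refine Integrable.of_bound (Measurable.aestronglyMeasurable (Finset.measurable_sum _
        fun o _ => (measurable_accept (hF o)).sub (measurable_accept (hwm o)))) 1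
        (ae_of_all _ fun u => ?_)
      rw [Real.norm_eq_abs, abs_of_nonneg (Finset.sum_nonneg fun o _ => sub_nonneg.2 (hwle o u))]
      exact hdiff1 u
    refine le_trans (integral_mono_ae hint (integrable_const (min pb 1)) ?_) (by simp)
    filter_upwards [hν.supp] with u hu
    exact le_min (sum_outside_le F hF h0 hsum u hu) (hdiff1 u)
  have hmain := info_le ν (fun o => accept (F o)) (fun o => accept (windowed (F o)))
    (fun o => measurable_accept (hF o)) (fun o => measurable_accept (hwm o))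
    (fun o => accept_nonneg (hw0 o)) hwle hgsum hR
    (fun o ho u => by simp [accept, hout o ho]) hpbint (min_le_right _ _)
    (fun o => ENNReal.toReal_nonneg) hlamsum hA1 (β := (m : ℝ) / (m + 1)) (by positivity)
    (by rw [div_le_one (by positivity)]; linarith)
    (fun o => sq_accept_le hν hm hD (hwm o) (hw0 o) (hw1 o) (fun z hz => windowed_support hz)
      (hlamfin o))
  refine le_trans hmain ?_
  rcases Nat.eq_zero_or_pos K with hK0 | hK0
  · subst hK0
    have h0e : R = ∅ := Finset.card_eq_zero.1 (Nat.le_zero.1 hR)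
    exfalso
    have := hsum (fun _ => 0, fun _ => 0)
    rw [Finset.sum_eq_zero fun o _ => hout o (by simp [h0e]) _] at this
    exact zero_ne_one this
  have hlogK : 0 ≤ Real.log K := Real.log_nonneg (by exact_mod_cast hK0)
  have e2 : (2 : ℝ) - 2 * ((m : ℝ) / (m + 1)) = 2 / (m + 1) := by field_simp; ring
  have hmin : min pb 1 * Real.log K ≤ pb * Real.log K :=
    mul_le_mul_of_nonneg_right (min_le_left _ _) hlogK
  have elogA : Real.log A = Real.log Kf + (2 * k + D + 5 * m + 2 : ℕ) * Real.log 2 +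
      2 * Real.log (windowConst d k) := by
    rw [hA, Real.log_mul (by positivity) (by positivity), Real.log_mul (by positivity)
      (by positivity), Real.log_pow, Real.log_pow]
    norm_num
  have h2 : 2 / ((m : ℝ) + 1) ≤ 1 := by
    rw [div_le_one (by positivity)]
    have : (1 : ℝ) ≤ m := by exact_mod_cast hm
    linarith
  rw [e2, elogA, phaseConst]
  nlinarith

/-- The information gain of one phase. -/
theorem phase_info {O : Type*} [Fintype O] {ν : Measure (Vec d)} [IsProbabilityMeasure ν]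
    {Kf : ℝ} {D m : ℕ} (hm : 1 ≤ m) (hD : m + 2 * k + 1 ≤ D) (c : Vec d) {r : ℝ} (hr : 0 < r)
    (hK : 1 ≤ Kf) (hsupp : ∀ᵐ s ∂ν, ‖s - c‖ ≤ r)
    (hfro : ∀ (u : Vec d) (i : ℕ),
      ν (Metric.closedBall u (r / 2 ^ i)) ≤ ENNReal.ofReal (Kf / 2 ^ (i * D)))
    (F : O → (Fin k → Vec d) × (Fin k → ℝ) → ℝ) (hF : ∀ o, Measurable (F o))
    (h0 : ∀ o z, 0 ≤ F o z) (hsum : ∀ z, ∑ o, F o z = 1) {R : Finset O} {K : ℕ}
    (hR : R.card ≤ K) (hout : ∀ o, o ∉ R → ∀ z, F o z = 0) :
    ∑ o, (∫ s, accept (F o) s * Real.log (accept (F o) s) ∂ν -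
        (∫ s, accept (F o) s ∂ν) * Real.log (∫ s, accept (F o) s ∂ν)) ≤
      Real.log Kf + phaseConst d k m D + (2 / (m + 1) + Real.exp (-(d : ℝ)) * 2 ^ k) *
        Real.log K := by
  set N : Vec d → Vec d := fun s => r⁻¹ • (s - c) with hN
  have hNm : Measurable N := by fun_prop
  haveI : IsProbabilityMeasure (ν.map N) := Measure.isProbabilityMeasure_map hNm.aemeasurable
  have hν'f : BallFrostman (ν.map N) Kf D := by
    refine ⟨hK, ?_, fun u i => ?_⟩
    · have hset : MeasurableSet {u : Vec d | ‖u‖ ≤ 1} :=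
        measurableSet_le measurable_norm measurable_const
      refine (ae_map_iff hNm.aemeasurable hset).2 ?_
      filter_upwards [hsupp] with s hs
      simp only [hN, norm_smul, norm_inv, Real.norm_eq_abs, abs_of_pos hr]
      rw [inv_mul_le_iff₀ hr, mul_one]
      exact hs
    · rw [Measure.map_apply hNm measurableSet_closedBall]
      refine le_trans (measure_mono fun s hs => ?_) (hfro (c + r • u) i)
      simp only [Set.mem_preimage, Metric.mem_closedBall, dist_eq_norm, hN] at hs ⊢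
      have : s - (c + r • u) = r • (r⁻¹ • (s - c) - u) := by
        rw [smul_sub, smul_inv_smul₀ hr.ne']; abel
      rw [this, norm_smul, Real.norm_eq_abs, abs_of_pos hr]
      calc r * ‖r⁻¹ • (s - c) - u‖ ≤ r * (1 / 2 ^ i) := by gcongr
        _ = r / 2 ^ i := by ring
  set T : (Fin k → Vec d) × (Fin k → ℝ) → (Fin k → Vec d) × (Fin k → ℝ) :=
    fun z => (z.1, fun i => r * z.2 i + ⟪z.1 i, c⟫) with hT
  have hTm : Measurable T := by simp only [hT]; fun_prop
  have harg : ∀ (X : Fin k → Vec d) (s : Vec d),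
      T (X, fun i => ⟪X i, N s⟫) = (X, fun i => ⟪X i, s⟫) := by
    intro X s
    simp only [hT, hN]
    refine Prod.ext rfl ?_
    funext i
    dsimp only
    rw [real_inner_smul_right, inner_sub_right, mul_inv_cancel_left₀ hr.ne', sub_add_cancel]
  have hg : ∀ o s, accept (fun z => F o (T z)) (N s) = accept (F o) s := by
    intro o s
    simp only [accept, harg]
  have hgm : ∀ o, Measurable (accept fun z => F o (T z)) :=
    fun o => measurable_accept ((hF o).comp hTm)
  have h := phase_info_unit hν'f hm hD (fun o z => F o (T z)) (fun o => (hF o).comp hTm)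
    (fun o z => h0 o _) (fun z => hsum _) hR (fun o ho z => hout o ho _)
  refine le_of_eq_of_le (Finset.sum_congr rfl fun o _ => ?_) h
  rw [integral_map (f := fun u => accept (fun z => F o (T z)) u *
        Real.log (accept (fun z => F o (T z)) u)) hNm.aemeasurable
      ((hgm o).mul (Real.measurable_log.comp (hgm o))).aestronglyMeasurable,
    integral_map hNm.aemeasurable (hgm o).aestronglyMeasurable]
  simp only [hg]

end Vale.Agent.P309
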