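import Vale.Agent.P309.Phase

/-!
Padding a learner with stopping to a learner with absorbing states, and unrolling a block of
samples into one test per outcome.
-/

noncomputable section

open MeasureTheory ProbabilityTheory Finset
open scoped RealInnerProductSpace ENNReal NNReal

namespace Vale.Agent.P309

variable {d N : ℕ}

/-- States of the padded learner: running, or stopped after some number of samples. -/
abbrev PadState (N T : ℕ) := Fin N ⊕ (Fin (T + 1) × Fin N)

/-- Transitions of the padded learner. -/
def padStep (L : Learner d N) (T t : ℕ) : PadState N T → Vec d × ℝ → PadState N T → ℝ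
  | .inr a, _, o => if o = .inr a then 1 else 0
  | .inl w, z, o =>
      if t < T then
        Sum.elim (fun w' => L.step t w z (.inl w'))
          (fun p => if (p.1 : ℕ) = t + 1 then L.step t w z (.inr p.2) else 0) o
      else if o = .inl w then 1 else 0

/-- Output success probability of the padded learner. -/
def padHit (L : Learner d N) (T : ℕ) (ε : ℝ) : PadState N T → Vec d → ℝ
  | .inl w, s => hitProb L ε T w s
  | .inr p, s => hitProb L ε p.1 p.2 s

/-- Success probability of the padded learner with `n` more samples. -/
def padSuccess (L : Learner d N) (T : ℕ) (ε : ℝ) : ℕ → ℕ → PadState N T → Vec d → ℝ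
  | 0, _, a, s => padHit L T ε a s
  | n + 1, t, a, s =>
      ∫ x, ∑ o, padStep L T t a (x, ⟪x, s⟫) o * padSuccess L T ε n (t + 1) o s
        ∂stdGaussian (Vec d)

theorem padStep_nonneg (L : Learner d N) (T t : ℕ) (a : PadState N T) (z : Vec d × ℝ)
    (o : PadState N T) : 0 ≤ padStep L T t a z o := by
  rcases a with w | p
  · simp only [padStep]
    by_cases h : t < T
    · rw [if_pos h]
      rcases o with w' | q
      · exact L.step_nonneg _ _ _ _
      · simp only [Sum.elim_inr]
        split_ifs
        · exact L.step_nonneg _ _ _ _
        · exact le_rfl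
    · rw [if_neg h]; split_ifs <;> norm_num
  · simp only [padStep]; split_ifs <;> norm_num

theorem padStep_sum (L : Learner d N) (T t : ℕ) (a : PadState N T) (z : Vec d × ℝ) :
    ∑ o, padStep L T t a z o = 1 := by
  rcases a with w | p
  · by_cases h : t < T
    · simp only [padStep, if_pos h, Fintype.sum_sum_type, Sum.elim_inl, Sum.elim_inr,
        Fintype.sum_prod_type]
      rw [Finset.sum_eq_single (⟨t + 1, by omega⟩ : Fin (T + 1))]
      · simp only [if_pos rfl]
        have := L.step_sum t w z
        rwa [Fintype.sum_sum_type] at this
      · intro i _ hi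
        refine Finset.sum_eq_zero fun w' _ => if_neg ?_
        exact fun hc => hi (Fin.ext hc)
      · simp
    · simp [padStep, h]
  · simp [padStep]

theorem padStep_measurable (L : Learner d N) (T t : ℕ) (a o : PadState N T) :
    Measurable fun z => padStep L T t a z o := by
  rcases a with w | p
  · unfold padStep
    by_cases h : t < T
    · simp only [if_pos h]
      rcases o with w' | q
      · simpa using L.step_measurable t w (.inl w')
      · by_cases hq : (q.1 : ℕ) = t + 1
        · simpa [hq] using L.step_measurable t w (.inr q.2)
        · simp [hq]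
    · simp only [if_neg h]; exact measurable_const
  · unfold padStep; exact measurable_const

theorem padStep_le_one (L : Learner d N) (T t : ℕ) (a : PadState N T) (z : Vec d × ℝ)
    (o : PadState N T) : padStep L T t a z o ≤ 1 :=
  (Finset.single_le_sum (fun o' _ => padStep_nonneg L T t a z o') (Finset.mem_univ o)).trans_eq
    (padStep_sum L T t a z)

theorem hitProb_nonneg (L : Learner d N) (ε : ℝ) (t : ℕ) (w : Fin N) (s : Vec d) :
    0 ≤ hitProb L ε t w s := measureReal_nonneg

theorem hitProb_le_one (L : Learner d N) (ε : ℝ) (t : ℕ) (w : Fin N) (s : Vec d) :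
    hitProb L ε t w s ≤ 1 := by
  haveI := L.out_prob t w
  exact measureReal_le_one

theorem hitProb_measurable (L : Learner d N) (ε : ℝ) (t : ℕ) (w : Fin N) :
    Measurable (hitProb L ε t w) := by
  haveI := L.out_prob t w
  have hset : MeasurableSet {q : Vec d × Vec d | Real.arccos ⟪q.2, q.1⟫ ≤ ε} :=
    measurableSet_le (Real.continuous_arccos.measurable.comp (by fun_prop)) measurable_const
  exact (measurable_measure_prodMk_left (ν := L.out t w) hset).ennreal_toReal

theorem padHit_nonneg (L : Learner d N) (T : ℕ) (ε : ℝ) (a : PadState N T) (s : Vec d) :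
    0 ≤ padHit L T ε a s := by
  rcases a with w | p <;> exact hitProb_nonneg _ _ _ _ _

theorem padHit_le_one (L : Learner d N) (T : ℕ) (ε : ℝ) (a : PadState N T) (s : Vec d) :
    padHit L T ε a s ≤ 1 := by
  rcases a with w | p <;> exact hitProb_le_one _ _ _ _ _

theorem padHit_measurable (L : Learner d N) (T : ℕ) (ε : ℝ) (a : PadState N T) :
    Measurable (padHit L T ε a) := by
  rcases a with w | p <;> exact hitProb_measurable _ _ _ _

/-- The padded success probability is measurable in the signal and lies in `[0,1]`. -/
theorem padSuccess_props (L : Learner d N) (T : ℕ) (ε : ℝ) : ∀ n t (a : PadState N T),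
    Measurable (padSuccess L T ε n t a) ∧
      ∀ s, 0 ≤ padSuccess L T ε n t a s ∧ padSuccess L T ε n t a s ≤ 1 := by
  intro n
  induction n with
  | zero =>
    intro t a
    exact ⟨padHit_measurable L T ε a, fun s => ⟨padHit_nonneg L T ε a s, padHit_le_one L T ε a s⟩⟩
  | succ n ih =>
    intro t a
    have hm : Measurable fun q : Vec d × Vec d =>
        ∑ o, padStep L T t a (q.2, ⟪q.2, q.1⟫) o * padSuccess L T ε n (t + 1) o q.1 :=
      Finset.measurable_sum _ fun o _ =>
        ((padStep_measurable L T t a o).comp (by fun_prop)).mul
          ((ih (t + 1) o).1.comp measurable_fst)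
    refine ⟨(hm.stronglyMeasurable.integral_prod_right').measurable, fun s => ?_⟩
    have hb : ∀ x : Vec d,
        0 ≤ ∑ o, padStep L T t a (x, ⟪x, s⟫) o * padSuccess L T ε n (t + 1) o s ∧
        ∑ o, padStep L T t a (x, ⟪x, s⟫) o * padSuccess L T ε n (t + 1) o s ≤ 1 := fun x =>
      ⟨Finset.sum_nonneg fun o _ =>
          mul_nonneg (padStep_nonneg L T t a _ o) ((ih (t + 1) o).2 s).1,
        le_trans (Finset.sum_le_sum fun o _ => mul_le_of_le_one_right (padStep_nonneg L T t a _ o)
          ((ih (t + 1) o).2 s).2) (padStep_sum L T t a _).le⟩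
    refine ⟨integral_nonneg fun x => (hb x).1, ?_⟩
    refine (integral_mono_of_nonneg (ae_of_all _ fun x => (hb x).1) (integrable_const 1)
      (ae_of_all _ fun x => (hb x).2)).trans_eq (by simp)

theorem padSuccess_stopped (L : Learner d N) (T : ℕ) (ε : ℝ) (p : Fin (T + 1) × Fin N)
    (s : Vec d) : ∀ n t, padSuccess L T ε n t (.inr p) s = hitProb L ε p.1 p.2 s := by
  intro n
  induction n with
  | zero => intro t; rfl
  | succ n ih =>
    intro t
    rw [padSuccess]
    have : ∀ x : Vec d, ∑ o, padStep L T t (.inr p) (x, ⟪x, s⟫) o *
        padSuccess L T ε n (t + 1) o s = hitProb L ε p.1 p.2 s := by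
      intro x
      simp [padStep, ih (t + 1)]
    simp [this]

theorem padSuccess_running (L : Learner d N) (T : ℕ) (ε : ℝ) (s : Vec d) :
    ∀ n t (w : Fin N), t ≤ T → T ≤ t + n →
      padSuccess L T ε n t (.inl w) s = successFrom L ε (T - t) t w s := by
  intro n
  induction n with
  | zero =>
    intro t w h1 h2
    obtain rfl : t = T := by omega
    simp [padSuccess, padHit, successFrom]
  | succ n ih =>
    intro t w h1 h2
    rw [padSuccess]
    by_cases h : t < T
    · rw [show T - t = (T - (t + 1)) + 1 by omega, successFrom]
      refine integral_congr_ae (ae_of_all _ fun x => ?_)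
      simp only [padStep, if_pos h, Fintype.sum_sum_type, Sum.elim_inl, Sum.elim_inr]
      congr 1
      · refine Finset.sum_congr rfl fun w' _ => ?_
        rw [ih (t + 1) w' (by omega) (by omega)]
      · rw [Fintype.sum_prod_type, Finset.sum_eq_single (⟨t + 1, by omega⟩ : Fin (T + 1))]
        · refine Finset.sum_congr rfl fun w' _ => ?_
          rw [if_pos rfl, padSuccess_stopped]
        · intro i _ hi
          refine Finset.sum_eq_zero fun w' _ => ?_
          rw [if_neg fun hc => hi (Fin.ext hc), zero_mul]
        · simp
    · obtain rfl : t = T := by omega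
      have hstay : ∀ n t', t ≤ t' → padSuccess L t ε n t' (.inl w) s = hitProb L ε t w s := by
        intro n
        induction n with
        | zero => intro t' _; rfl
        | succ n ihn =>
          intro t' ht'
          rw [padSuccess]
          have : ∀ x : Vec d, ∑ o, padStep L t t' (.inl w) (x, ⟪x, s⟫) o *
              padSuccess L t ε n (t' + 1) o s = hitProb L ε t w s := by
            intro x
            simp [padStep, not_lt.2 ht', ihn (t' + 1) (by omega)]
          simp [this]
      have := hstay (n + 1) t le_rfl
      rw [padSuccess] at this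
      rw [this]
      simp [successFrom]

/-- The tests of a block of `k` samples. -/
def blockTest (L : Learner d N) (T : ℕ) :
    (k : ℕ) → ℕ → PadState N T → PadState N T → (Fin k → Vec d) × (Fin k → ℝ) → ℝ
  | 0, _, a, o, _ => if o = a then 1 else 0
  | k + 1, t, a, o, z =>
      ∑ b, padStep L T t a (z.1 0, z.2 0) b *
        blockTest L T k (t + 1) b o (fun i => z.1 i.succ, fun i => z.2 i.succ)

theorem blockTest_measurable (L : Learner d N) (T : ℕ) : ∀ k t (a o : PadState N T),
    Measurable (blockTest L T k t a o) := by
  intro k
  induction k with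
  | zero => intro t a o; exact measurable_const
  | succ k ih =>
    intro t a o
    exact Finset.measurable_sum _ fun b _ =>
      ((padStep_measurable L T t a b).comp (by fun_prop)).mul ((ih (t + 1) b o).comp (by fun_prop))

theorem blockTest_nonneg (L : Learner d N) (T : ℕ) : ∀ k t (a o : PadState N T) z,
    0 ≤ blockTest L T k t a o z := by
  intro k
  induction k with
  | zero => intro t a o z; unfold blockTest; split_ifs <;> norm_num
  | succ k ih =>
    intro t a o z
    exact Finset.sum_nonneg fun b _ => mul_nonneg (padStep_nonneg L T t a _ b) (ih _ _ _ _)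

theorem blockTest_sum (L : Learner d N) (T : ℕ) : ∀ k t (a : PadState N T) z,
    ∑ o, blockTest L T k t a o z = 1 := by
  intro k
  induction k with
  | zero => intro t a z; simp [blockTest]
  | succ k ih =>
    intro t a z
    simp only [blockTest]
    rw [Finset.sum_comm]
    simp_rw [← Finset.mul_sum, ih, mul_one]
    exact padStep_sum L T t a _

theorem blockTest_le_one (L : Learner d N) (T k t : ℕ) (a o : PadState N T)
    (z : (Fin k → Vec d) × (Fin k → ℝ)) : blockTest L T k t a o z ≤ 1 :=
  (Finset.single_le_sum (fun o' _ => blockTest_nonneg L T k t a o' z) (Finset.mem_univ o)).trans_eq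
    (blockTest_sum L T k t a z)

theorem blockTest_stopped (L : Learner d N) (T : ℕ) (p : Fin (T + 1) × Fin N) :
    ∀ k t (o : PadState N T) z, o ≠ .inr p → blockTest L T k t (.inr p) o z = 0 := by
  intro k
  induction k with
  | zero => intro t o z ho; simp [blockTest, ho]
  | succ k ih =>
    intro t o z ho
    simp [blockTest, padStep, ih _ _ _ ho]

/-- States reachable from a running state in `k` steps. -/
def reach (N T t k : ℕ) : Finset (PadState N T) :=
  (univ.map Function.Embedding.inl) ∪
    (((univ.filter fun i : Fin (T + 1) => t < (i : ℕ) ∧ (i : ℕ) ≤ t + k) ×ˢ univ).map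
      Function.Embedding.inr)

theorem reach_card_le (N T t k : ℕ) : (reach N T t k).card ≤ (k + 1) * N := by
  unfold reach
  refine (Finset.card_union_le _ _).trans ?_
  rw [Finset.card_map, Finset.card_map, Finset.card_product, Finset.card_univ, Fintype.card_fin]
  have hf : (univ.filter fun i : Fin (T + 1) => t < (i : ℕ) ∧ (i : ℕ) ≤ t + k).card ≤ k := by
    refine (Finset.card_le_card_of_injOn (fun i : Fin (T + 1) => (i : ℕ))
      (t := Finset.Ioc t (t + k)) ?_ ?_).trans
      (le_of_eq ((Nat.card_Ioc t (t + k)).trans (Nat.add_sub_cancel_left t k)))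
    · intro i hi
      simp only [Finset.coe_filter, Finset.mem_univ, true_and, Set.mem_setOf_eq] at hi
      simpa using hi
    · exact fun i _ j _ h => Fin.ext h
  nlinarith

theorem mem_reach_inl (N T t k : ℕ) (w : Fin N) : (.inl w : PadState N T) ∈ reach N T t k := by
  simp [reach]

theorem mem_reach_inr (N T t k : ℕ) (p : Fin (T + 1) × Fin N) :
    (.inr p : PadState N T) ∈ reach N T t k ↔ t < (p.1 : ℕ) ∧ (p.1 : ℕ) ≤ t + k := by
  simp [reach]

theorem blockTest_running (L : Learner d N) (T : ℕ) : ∀ k t (w : Fin N) (o : PadState N T) z,
    o ∉ reach N T t k → blockTest L T k t (.inl w) o z = 0 := by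
  intro k
  induction k with
  | zero =>
    intro t w o z ho
    unfold blockTest
    refine if_neg fun h => ho ?_
    rw [h]; exact mem_reach_inl _ _ _ _ _
  | succ k ih =>
    intro t w o z ho
    simp only [blockTest]
    refine Finset.sum_eq_zero fun b _ => ?_
    rcases b with w' | p
    · refine mul_eq_zero_of_right _ (ih _ _ _ _ fun hmem => ho ?_)
      rcases o with w'' | q
      · exact mem_reach_inl _ _ _ _ _
      · rw [mem_reach_inr] at hmem ⊢; omega
    · by_cases hop : o = .inr p
      · refine mul_eq_zero_of_left ?_ _
        subst hop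
        rw [mem_reach_inr] at ho
        unfold padStep
        split_ifs with ht
        · simp only [Sum.elim_inr]
          exact if_neg fun hc => ho (by omega)
        · exact if_neg (by simp)
      · exact mul_eq_zero_of_right _ (blockTest_stopped L T p k _ o _ hop)

/-- The number of outcomes of a block from any state. -/
theorem blockTest_support (L : Learner d N) (T k t : ℕ) (a : PadState N T) :
    ∃ R : Finset (PadState N T), R.card ≤ (k + 1) * N ∧
      ∀ o, o ∉ R → ∀ z, blockTest L T k t a o z = 0 := by
  rcases a with w | p
  · exact ⟨reach N T t k, reach_card_le N T t k, fun o ho z => blockTest_running L T k t w o z ho⟩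
  · refine ⟨{.inr p}, ?_, fun o ho z => blockTest_stopped L T p k t o z (by simpa using ho)⟩
    have : 1 ≤ N := p.2.pos
    simp only [Finset.card_singleton]
    nlinarith

theorem accept_blockTest_succ (L : Learner d N) (T k t : ℕ) (a o : PadState N T) (s : Vec d) :
    accept (blockTest L T (k + 1) t a o) s =
      ∫ x, ∑ b, padStep L T t a (x, ⟪x, s⟫) b * accept (blockTest L T k (t + 1) b o) s
        ∂stdGaussian (Vec d) := by
  have h := (measurePreserving_piFinSuccAbove (fun _ : Fin (k + 1) => stdGaussian (Vec d)) 0).symm
  have hi : ∀ b, Integrable (fun q : Vec d × (Fin k → Vec d) =>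
      padStep L T t a (q.1, ⟪q.1, s⟫) b *
        blockTest L T k (t + 1) b o (q.2, fun i => ⟪q.2 i, s⟫))
      ((stdGaussian (Vec d)).prod (rows d k)) := by
    intro b
    refine Integrable.of_bound (((padStep_measurable L T t a b).comp (by fun_prop)).mul
      ((blockTest_measurable L T k (t + 1) b o).comp (by fun_prop))).aestronglyMeasurable 1
      (ae_of_all _ fun q => ?_)
    rw [Real.norm_eq_abs, abs_of_nonneg (mul_nonneg (padStep_nonneg L T t a _ b)
      (blockTest_nonneg L T k (t + 1) b o _))]
    exact mul_le_one₀ (padStep_le_one L T t a _ b) (blockTest_nonneg L T k (t + 1) b o _)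
      (blockTest_le_one L T k (t + 1) b o _)
  calc accept (blockTest L T (k + 1) t a o) s
      = ∫ q : Vec d × (Fin k → Vec d), ∑ b, padStep L T t a (q.1, ⟪q.1, s⟫) b *
          blockTest L T k (t + 1) b o (q.2, fun i => ⟪q.2 i, s⟫)
          ∂(stdGaussian (Vec d)).prod (rows d k) := by
        rw [accept, ← h.integral_comp']
        refine integral_congr_ae (ae_of_all _ fun q => ?_)
        simp [blockTest, MeasurableEquiv.piFinSuccAbove_symm_apply, Fin.insertNthEquiv]
    _ = _ := by
        rw [integral_prod _ (integrable_finsetSum _ fun b _ => hi b)]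
        refine integral_congr_ae (ae_of_all _ fun x => ?_)
        dsimp only
        rw [integral_finsetSum _ fun b _ => (integrable_test (blockTest_measurable L T k (t + 1) b o)
          (blockTest_nonneg L T k (t + 1) b o) (blockTest_le_one L T k (t + 1) b o) s).const_mul _]
        simp only [integral_const_mul, accept]

theorem accept_sum_blockTest (L : Learner d N) (T k t : ℕ) (a : PadState N T) (s : Vec d) :
    ∑ o, accept (blockTest L T k t a o) s = 1 := by
  simp only [accept]
  rw [← integral_finsetSum _ fun o _ => integrable_test (blockTest_measurable L T k t a o)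
    (blockTest_nonneg L T k t a o) (blockTest_le_one L T k t a o) s]
  simp_rw [blockTest_sum]
  simp

/-- Unrolling one block. -/
theorem padSuccess_add (L : Learner d N) (T : ℕ) (ε : ℝ) (s : Vec d) :
    ∀ k n t (a : PadState N T), padSuccess L T ε (k + n) t a s =
      ∑ o, accept (blockTest L T k t a o) s * padSuccess L T ε n (t + k) o s := by
  intro k
  induction k with
  | zero =>
    intro n t a
    have : ∀ o, accept (blockTest L T 0 t a o) s = if o = a then (1 : ℝ) else 0 := by
      intro o; simp [accept, blockTest]
    simp [this]
  | succ k ih =>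
    intro n t a
    rw [show k + 1 + n = (k + n) + 1 by omega, padSuccess]
    simp_rw [ih n (t + 1), accept_blockTest_succ, show t + 1 + k = t + (k + 1) by omega,
      Finset.mul_sum]
    have hb : ∀ o b, Integrable (fun x : Vec d => padStep L T t a (x, ⟪x, s⟫) b *
        accept (blockTest L T k (t + 1) b o) s) (stdGaussian (Vec d)) := by
      intro o b
      refine Integrable.of_bound
        (((padStep_measurable L T t a b).comp (by fun_prop)).mul_const _).aestronglyMeasurable 1
        (ae_of_all _ fun x => ?_)
      rw [Real.norm_eq_abs, abs_of_nonneg (mul_nonneg (padStep_nonneg L T t a _ b)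
        (accept_nonneg (blockTest_nonneg L T k (t + 1) b o) s))]
      exact mul_le_one₀ (padStep_le_one L T t a _ b)
        (accept_nonneg (blockTest_nonneg L T k (t + 1) b o) s)
        (accept_le_one (blockTest_measurable L T k (t + 1) b o)
          (blockTest_nonneg L T k (t + 1) b o) (blockTest_le_one L T k (t + 1) b o) s)
    simp_rw [← integral_mul_const, Finset.sum_mul]
    rw [← integral_finsetSum _ fun o _ => integrable_finsetSum _ fun b _ => (hb o b).mul_const _]
    refine integral_congr_ae (ae_of_all _ fun x => ?_)
    dsimp only
    rw [Finset.sum_comm]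
    exact Finset.sum_congr rfl fun o _ => Finset.sum_congr rfl fun b _ => by ring

end Vale.Agent.P309
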